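import Mathlib
import Vale.Agent.Lib.P012.Defs2

namespace Vale.Agent.Lib.P012

open Finset

private lemma bp_A (n : ℕ) : 54 * (n + 30) + 145 ≤ 2 ^ (n + 27) := by
  induction n with
  | zero => norm_num
  | succ n ih =>
    have : 2 ^ (n + 1 + 27) = 2 * 2 ^ (n + 27) := by ring
    omega

private lemma bp_B (n : ℕ) : 4710 * (n + 30) ^ 2 ≤ 2 ^ (n + 29) := by
  induction n with
  | zero => norm_num
  | succ n ih =>
    have h1 : 2 ^ (n + 1 + 29) = 2 * 2 ^ (n + 29) := by ring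
    have h2 : (n + 1 + 30) ^ 2 ≤ 2 * (n + 30) ^ 2 := by
      have e1 : (n + 1 + 30) ^ 2 = n ^ 2 + 62 * n + 961 := by ring
      have e2 : (n + 30) ^ 2 = n ^ 2 + 60 * n + 900 := by ring
      omega
    rw [h1]
    omega

private lemma bp_C (n : ℕ) : (n + 35) ^ 4 ≤ 1600 * 2 ^ (n + 21) := by
  induction n with
  | zero => norm_num
  | succ n ih =>
    have h1 : 2 ^ (n + 1 + 21) = 2 * 2 ^ (n + 21) := by ring
    have h2 : (n + 1 + 35) ^ 4 ≤ 2 * (n + 35) ^ 4 := by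
      have e1 : (n + 1 + 35) ^ 2 * 5 ≤ 7 * (n + 35) ^ 2 := by
        have f1 : (n + 1 + 35) ^ 2 = n ^ 2 + 72 * n + 1296 := by ring
        have f2 : (n + 35) ^ 2 = n ^ 2 + 70 * n + 1225 := by ring
        omega
      have e2 : ((n + 1 + 35) ^ 2 * 5) ^ 2 ≤ (7 * (n + 35) ^ 2) ^ 2 :=
        Nat.pow_le_pow_left e1 2
      have e3 : ((n + 1 + 35) ^ 2 * 5) ^ 2 = 25 * (n + 1 + 35) ^ 4 := by ring
      have e4 : (7 * (n + 35) ^ 2) ^ 2 = 49 * (n + 35) ^ 4 := by ring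
      rw [e3, e4] at e2
      omega
    rw [h1]
    omega

theorem base_params (k : ℕ) (hk : 30 ≤ k) : ∃ i₀ k' : ℕ, 54 * k + 145 ≤ 2 ^ i₀ ∧ i₀ + 3 ≤ k ∧
    (9 * k + 24) * (4 * 2 ^ i₀ + 8) ≤ 2 ^ k' ∧ 10 ≤ k' ∧ k' + 1 ≤ k ∧ k' ^ 2 ≤ 40 * k := by
  obtain ⟨n, rfl⟩ : ∃ n, k = n + 30 := ⟨k - 30, by omega⟩
  obtain ⟨k, hkdef⟩ : ∃ k, k = n + 30 := ⟨_, rfl⟩
  rw [← hkdef]
  obtain ⟨Q, hQ⟩ : ∃ Q, Q = 54 * k + 145 := ⟨_, rfl⟩
  obtain ⟨i₀, hi0⟩ : ∃ i, i = Nat.clog 2 Q := ⟨_, rfl⟩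
  obtain ⟨P, hP⟩ : ∃ P, P = (9 * k + 24) * (4 * 2 ^ i₀ + 8) := ⟨_, rfl⟩
  obtain ⟨k', hk'⟩ : ∃ i, i = Nat.clog 2 P := ⟨_, rfl⟩
  have h1 : 54 * k + 145 ≤ 2 ^ i₀ := by
    rw [← hQ, hi0]; exact Nat.le_pow_clog (by norm_num) _
  have h2 : 2 ^ (i₀ - 1) < 54 * k + 145 := by
    rw [← hQ, hi0]; exact Nat.pow_pred_clog_lt_self (by norm_num) (by omega)
  have h3 : P ≤ 2 ^ k' := by
    rw [hk']; exact Nat.le_pow_clog (by norm_num) _
  have hPbig : 2 ^ 9 < P := by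
    have a1 : 294 ≤ 9 * k + 24 := by omega
    have a2 : 8 ≤ 4 * 2 ^ i₀ + 8 := by omega
    have : 294 * 8 ≤ P := by rw [hP]; exact Nat.mul_le_mul a1 a2
    have : (2 : ℕ) ^ 9 = 512 := by norm_num
    omega
  have h4 : 2 ^ (k' - 1) < P := by
    rw [hk']; exact Nat.pow_pred_clog_lt_self (by norm_num) (by omega)
  have hi0pos : 1 ≤ i₀ := by
    by_contra hc
    have : i₀ = 0 := by omega
    rw [this] at h1
    omega
  have h2' : 2 ^ i₀ < 2 * (54 * k + 145) := by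
    have : 2 ^ i₀ = 2 * 2 ^ (i₀ - 1) := by
      conv_lhs => rw [show i₀ = (i₀ - 1) + 1 by omega]
      ring
    omega
  have hPle : P ≤ 4710 * k ^ 2 := by
    have a1 : 9 * k + 24 ≤ 10 * k := by omega
    have a2 : 4 * 2 ^ i₀ + 8 ≤ 471 * k := by omega
    calc P ≤ (10 * k) * (471 * k) := by rw [hP]; exact Nat.mul_le_mul a1 a2
      _ = 4710 * k ^ 2 := by ring
  have hk'10 : 10 ≤ k' := by
    by_contra hc
    have : k' ≤ 9 := by omega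
    have : 2 ^ k' ≤ 2 ^ 9 := Nat.pow_le_pow_right (by norm_num) this
    omega
  have hi0k : i₀ + 3 ≤ k := by
    by_contra hc
    have a1 : n + 27 ≤ i₀ - 1 := by omega
    have a2 : 2 ^ (n + 27) ≤ 2 ^ (i₀ - 1) := Nat.pow_le_pow_right (by norm_num) a1
    have a3 := bp_A n
    rw [← hkdef] at a3
    omega
  have hk'k : k' + 1 ≤ k := by
    by_contra hc
    have a1 : n + 29 ≤ k' - 1 := by omega
    have a2 : 2 ^ (n + 29) ≤ 2 ^ (k' - 1) := Nat.pow_le_pow_right (by norm_num) a1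
    have a3 := bp_B n
    rw [← hkdef] at a3
    omega
  refine ⟨i₀, k', h1, hi0k, hP ▸ h3, hk'10, hk'k, ?_⟩
  by_cases hc : k' ≤ 34
  · have : k' ^ 2 ≤ 34 ^ 2 := Nat.pow_le_pow_left hc 2
    omega
  · obtain ⟨m, hm⟩ : ∃ m, k' = m + 35 := ⟨k' - 35, by omega⟩
    have a1 := bp_C m
    have a2 : 2 ^ (k' - 1) = 2 ^ 13 * 2 ^ (m + 21) := by
      rw [hm, ← pow_add]
      congr 1
      omega
    have a3 : 2 ^ 13 * 2 ^ (m + 21) < 4710 * k ^ 2 := by omega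
    have a4 : 2 ^ (m + 21) < k ^ 2 := by
      have : (2 : ℕ) ^ 13 = 8192 := by norm_num
      omega
    have a5 : (k' ^ 2) ^ 2 < (40 * k) ^ 2 := by
      have e1 : (k' ^ 2) ^ 2 = (m + 35) ^ 4 := by rw [hm]; ring
      have e2 : (40 * k) ^ 2 = 1600 * k ^ 2 := by ring
      rw [e1, e2]
      omega
    exact (lt_of_pow_lt_pow_left₀ 2 (Nat.zero_le _) a5).le

end Vale.Agent.Lib.P012
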