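import Mathlib
import Vale.Agent.Lib.P012.Defs

namespace Vale.Agent.Lib.P012

open Finset

theorem Rep.mono {N f g : ℕ} (h : Rep N f) (hfg : f ≤ g) : Rep N g := by
  intro m hm
  obtain ⟨D, hD, hc, hs⟩ := h m hm
  exact ⟨D, hD, hc.trans hfg, hs⟩

/-- the multiplicative step -/
theorem Rep.step {N q f s : ℕ} (hq : 1 < q) (hco : Nat.Coprime N q) (h : Rep N f)
    (hc : Cov N q s) : Rep (N * q) (f + s) := by
  intro m hm
  have hN : 0 < N := by
    rcases Nat.eq_zero_or_pos N with h0 | h0
    · subst h0
      simp at hco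
      omega
    · exact h0
  have hNq : N * q ≠ 0 := by positivity
  by_cases hmN : m ≤ N
  · obtain ⟨D, hD, hcard, hsum⟩ := h m hmN
    exact ⟨D, hD.trans (Nat.divisors_subset_of_dvd hNq (dvd_mul_right N q)), by omega, hsum⟩
  · have hmN' : N < m := by omega
    obtain ⟨D, hD, hcard, hle, hmod⟩ := hc m
    have hle' : ∑ d ∈ D, d ≤ m := by omega
    have hdvd : q ∣ m - ∑ d ∈ D, d := (Nat.modEq_iff_dvd' hle').1 hmod
    obtain ⟨m', hm'⟩ := hdvd
    have hm'N : m' ≤ N := by
      have h1 : q * m' ≤ q * N := by
        rw [← hm', mul_comm q N]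
        omega
      exact Nat.le_of_mul_le_mul_left h1 (by omega)
    obtain ⟨E, hE, hEcard, hEsum⟩ := h m' hm'N
    have hinj : Function.Injective (fun e : ℕ => q * e) := by
      intro a b hab
      exact Nat.eq_of_mul_eq_mul_left (by omega) hab
    have hdisj : Disjoint D (E.image (fun e => q * e)) := by
      rw [Finset.disjoint_left]
      intro d hd hd'
      obtain ⟨e, -, rfl⟩ := Finset.mem_image.1 hd'
      have h1 : q * e ∣ N := Nat.dvd_of_mem_divisors (hD hd)
      have h2 : q ∣ N := (dvd_mul_right q e).trans h1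
      have h3 : q ∣ Nat.gcd N q := Nat.dvd_gcd h2 dvd_rfl
      rw [hco] at h3
      have := Nat.le_of_dvd one_pos h3
      omega
    refine ⟨D ∪ E.image (fun e => q * e), ?_, ?_, ?_⟩
    · intro d hd
      rcases Finset.mem_union.1 hd with hd | hd
      · exact Nat.divisors_subset_of_dvd hNq (dvd_mul_right N q) (hD hd)
      · obtain ⟨e, he, rfl⟩ := Finset.mem_image.1 hd
        rw [Nat.mem_divisors]
        refine ⟨?_, hNq⟩
        rw [mul_comm N q]
        exact mul_dvd_mul_left q (Nat.dvd_of_mem_divisors (hE he))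
    · rw [Finset.card_union_of_disjoint hdisj, Finset.card_image_of_injective _ hinj]
      omega
    · rw [Finset.sum_union hdisj, Finset.sum_image (fun a _ b _ hab => hinj hab),
        ← Finset.mul_sum, hEsum, ← hm']
      omega

/-- `Rep N f` itself gives a covering of the residues modulo any `p ≤ N + 1`. -/
theorem Rep.cov {N p f : ℕ} (hp : 0 < p) (hpN : p ≤ N + 1) (h : Rep N f) : Cov N p f := by
  intro c
  have h1 : c % p < p := Nat.mod_lt _ hp
  obtain ⟨D, hD, hcard, hsum⟩ := h (c % p) (by omega)
  refine ⟨D, hD, hcard, by omega, ?_⟩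
  rw [hsum]
  exact Nat.mod_modEq c p

theorem le_primorial (P : ℕ) : P ≤ primorial P := by
  have hpos : 0 < primorial P := primorial_pos P
  set p := Nat.minFac (primorial P + 1) with hp
  have hpp : p.Prime := Nat.minFac_prime (by omega)
  have hple : p ≤ primorial P + 1 := Nat.minFac_le (by omega)
  have hnot : ¬ p ≤ P := by
    intro hle
    have h1 : p ∣ primorial P := by
      unfold primorial
      apply Finset.dvd_prod_of_mem (fun x => x)
      simp only [Finset.mem_filter, Finset.mem_range]
      exact ⟨by omega, hpp⟩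
    have h2 : p ∣ primorial P + 1 := Nat.minFac_dvd _
    have h3 : p ∣ 1 := (Nat.dvd_add_right h1).1 h2
    exact hpp.one_lt.ne' (Nat.dvd_one.1 h3)
  omega

theorem primorial_add_one {P : ℕ} (hp : (P + 1).Prime) :
    primorial (P + 1) = (P + 1) * primorial P := by
  unfold primorial
  rw [Finset.range_add_one (n := P + 1), Finset.filter_insert, if_pos hp, Finset.prod_insert]
  simp

theorem primorial_add_one_of_not_prime {P : ℕ} (hp : ¬ (P + 1).Prime) :
    primorial (P + 1) = primorial P := by
  unfold primorial
  rw [Finset.range_add_one (n := P + 1), Finset.filter_insert, if_neg hp]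

theorem rep_primorial (P : ℕ) : ∃ f, Rep (primorial P) f := by
  induction P with
  | zero =>
    refine ⟨1, ?_⟩
    intro m hm
    have hm' : m ≤ 1 := by simpa using hm
    interval_cases m
    · exact ⟨∅, by simp, by simp, by simp⟩
    · exact ⟨{1}, by simp, by simp, by simp⟩
  | succ P ih =>
    obtain ⟨f, hf⟩ := ih
    by_cases hp : (P + 1).Prime
    · refine ⟨f + f, ?_⟩
      have e : primorial (P + 1) = primorial P * (P + 1) := by
        rw [primorial_add_one hp, mul_comm]
      rw [e]
      apply Rep.step hp.one_lt _ hf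
      · exact Rep.cov (by omega) (by have := le_primorial P; omega) hf
      · rw [Nat.coprime_comm, Nat.Prime.coprime_iff_not_dvd hp]
        intro hd
        have := (Nat.Prime.dvd_primorial_iff hp).1 hd
        omega
    · exact ⟨f, by rw [primorial_add_one_of_not_prime hp]; exact hf⟩

end Vale.Agent.Lib.P012
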