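import Mathlib
import Vale.Agent.Lib.P012.Defs

/-!
# P012, task T1: the bilinear bound

`annc ξ * ‖bsum X Y ξ‖ ^ 2 ≤ q * En X ξ * En Y ξ`.
-/

namespace Vale.Agent.Lib.P012

open Finset

variable {q : ℕ} [NeZero q]

/-- inner sum of the bilinear form, as a function on `ZMod q` -/
noncomputable def Tsum (Y : Finset ℕ) (ξ v : ZMod q) : ℂ :=
  ∑ y ∈ Y, ZMod.stdAddChar (ξ * (v * (y : ZMod q)))

/-- number of `x ∈ X` in the class of `v` modulo the annihilator of `ξ` -/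
noncomputable def Wt (X : Finset ℕ) (ξ v : ZMod q) : ℝ :=
  ∑ x ∈ X, if ξ * (v - (x : ZMod q)) = 0 then 1 else 0

lemma sum_translate (ξ a : ZMod q) :
    ∑ v : ZMod q, (if ξ * (v - a) = 0 then (1 : ℝ) else 0) = annc ξ := by
  unfold annc
  rw [Finset.card_filter]
  push_cast
  exact Fintype.sum_equiv (Equiv.subRight a) _ _ (fun v => by simp)

lemma Tsum_congr (Y : Finset ℕ) (ξ v a : ZMod q) (h : ξ * (v - a) = 0) :
    Tsum Y ξ v = Tsum Y ξ a := by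
  unfold Tsum
  refine Finset.sum_congr rfl (fun y _ => ?_)
  have : ξ * (v * (y : ZMod q)) = ξ * (a * (y : ZMod q)) := by
    have h2 : ξ * (v * (y : ZMod q)) - ξ * (a * (y : ZMod q)) = (ξ * (v - a)) * y := by ring
    rw [h, zero_mul] at h2
    exact sub_eq_zero.mp h2
  rw [this]

lemma bsum_eq (X Y : Finset ℕ) (ξ : ZMod q) :
    bsum X Y ξ = ∑ x ∈ X, Tsum Y ξ (x : ZMod q) := rfl

lemma annc_mul_bsum (X Y : Finset ℕ) (ξ : ZMod q) :
    (annc ξ : ℂ) * bsum X Y ξ = ∑ v : ZMod q, (Wt X ξ v : ℂ) * Tsum Y ξ v := by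
  have h1 : ∀ v : ZMod q, (Wt X ξ v : ℂ) * Tsum Y ξ v
      = ∑ x ∈ X, ((if ξ * (v - (x : ZMod q)) = 0 then (1 : ℝ) else 0 : ℝ) : ℂ)
          * Tsum Y ξ (x : ZMod q) := by
    intro v
    unfold Wt
    rw [Complex.ofReal_sum, Finset.sum_mul]
    refine Finset.sum_congr rfl (fun x _ => ?_)
    by_cases h : ξ * (v - (x : ZMod q)) = 0
    · rw [Tsum_congr Y ξ v x h]
    · simp [h]
  rw [Finset.sum_congr rfl (fun v _ => h1 v), Finset.sum_comm, bsum_eq, Finset.mul_sum]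
  refine Finset.sum_congr rfl (fun x _ => ?_)
  rw [← Finset.sum_mul, ← Complex.ofReal_sum, sum_translate]
  simp

lemma sum_two_translates (ξ a b : ZMod q) :
    ∑ v : ZMod q, ((if ξ * (v - a) = 0 then (1 : ℝ) else 0) * (if ξ * (v - b) = 0 then 1 else 0))
      = if ξ * (a - b) = 0 then (annc ξ : ℝ) else 0 := by
  by_cases h : ξ * (a - b) = 0
  · rw [if_pos h, ← sum_translate ξ a]
    refine Finset.sum_congr rfl (fun v _ => ?_)
    have : ξ * (v - b) = ξ * (v - a) := by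
      have h2 : ξ * (v - b) = ξ * (v - a) + ξ * (a - b) := by ring
      rw [h2, h, add_zero]
    rw [this]
    by_cases h3 : ξ * (v - a) = 0 <;> simp [h3]
  · rw [if_neg h]
    refine Finset.sum_eq_zero (fun v _ => ?_)
    by_cases h3 : ξ * (v - a) = 0
    · by_cases h4 : ξ * (v - b) = 0
      · exfalso
        apply h
        have h2 : ξ * (a - b) = ξ * (v - b) - ξ * (v - a) := by ring
        rw [h2, h3, h4, sub_zero]
      · simp [h4]
    · simp [h3]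

lemma sum_Wt_sq (X : Finset ℕ) (ξ : ZMod q) :
    ∑ v : ZMod q, Wt X ξ v ^ 2 = (annc ξ : ℝ) * En X ξ := by
  have h1 : ∀ v : ZMod q, Wt X ξ v ^ 2 = ∑ x ∈ X, ∑ x' ∈ X,
      ((if ξ * (v - (x : ZMod q)) = 0 then (1 : ℝ) else 0)
        * (if ξ * (v - (x' : ZMod q)) = 0 then 1 else 0)) := by
    intro v
    unfold Wt
    rw [sq, Finset.sum_mul_sum]
  rw [Finset.sum_congr rfl (fun v _ => h1 v), Finset.sum_comm]
  have h2 : ∀ x ∈ X, ∑ v : ZMod q, ∑ x' ∈ X,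
      ((if ξ * (v - (x : ZMod q)) = 0 then (1 : ℝ) else 0)
        * (if ξ * (v - (x' : ZMod q)) = 0 then 1 else 0))
      = ∑ x' ∈ X, if ξ * ((x : ZMod q) - (x' : ZMod q)) = 0 then (annc ξ : ℝ) else 0 := by
    intro x _
    rw [Finset.sum_comm]
    exact Finset.sum_congr rfl (fun x' _ => sum_two_translates ξ x x')
  rw [Finset.sum_congr rfl h2]
  unfold En
  rw [Finset.card_filter, Finset.sum_product]
  push_cast
  rw [Finset.mul_sum]
  refine Finset.sum_congr rfl (fun x _ => ?_)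
  rw [Finset.mul_sum]
  refine Finset.sum_congr rfl (fun x' _ => ?_)
  by_cases h : ξ * ((x : ZMod q) - (x' : ZMod q)) = 0 <;> simp [h]

lemma sum_norm_Tsum_sq (Y : Finset ℕ) (ξ : ZMod q) :
    ∑ v : ZMod q, ‖Tsum Y ξ v‖ ^ 2 = (q : ℝ) * En Y ξ := by
  have h1 : ∀ v : ZMod q, ((‖Tsum Y ξ v‖ ^ 2 : ℝ) : ℂ) = ∑ y ∈ Y, ∑ y' ∈ Y,
      ZMod.stdAddChar (v * (ξ * ((y : ZMod q) - (y' : ZMod q)))) := by
    intro v
    rw [← Complex.normSq_eq_norm_sq, ← Complex.mul_conj]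
    unfold Tsum
    rw [map_sum, Finset.sum_mul_sum]
    refine Finset.sum_congr rfl (fun y _ => ?_)
    refine Finset.sum_congr rfl (fun y' _ => ?_)
    rw [← AddChar.map_neg_eq_conj, ← AddChar.map_add_eq_mul]
    congr 1
    ring
  have h2 : ((∑ v : ZMod q, ‖Tsum Y ξ v‖ ^ 2 : ℝ) : ℂ) = (((q : ℝ) * En Y ξ : ℝ) : ℂ) := by
    rw [Complex.ofReal_sum, Finset.sum_congr rfl (fun v _ => h1 v), Finset.sum_comm]
    have h3 : ∀ y ∈ Y, ∑ v : ZMod q, ∑ y' ∈ Y,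
        (ZMod.stdAddChar (v * (ξ * ((y : ZMod q) - (y' : ZMod q)))) : ℂ)
        = ∑ y' ∈ Y, if ξ * ((y : ZMod q) - (y' : ZMod q)) = 0 then (q : ℂ) else 0 := by
      intro y _
      rw [Finset.sum_comm]
      refine Finset.sum_congr rfl (fun y' _ => ?_)
      rw [AddChar.sum_mulShift _ (ZMod.isPrimitive_stdAddChar q), ZMod.card]
      split_ifs <;> simp
    rw [Finset.sum_congr rfl h3]
    unfold En
    rw [Finset.card_filter, Finset.sum_product]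
    push_cast
    rw [Finset.mul_sum]
    refine Finset.sum_congr rfl (fun y _ => ?_)
    rw [Finset.mul_sum]
    refine Finset.sum_congr rfl (fun y' _ => ?_)
    by_cases h : ξ * ((y : ZMod q) - (y' : ZMod q)) = 0 <;> simp [h]
  exact_mod_cast h2

lemma annc_pos (ξ : ZMod q) : 0 < annc ξ := by
  unfold annc
  exact Finset.card_pos.mpr ⟨0, by simp⟩

omit [NeZero q] in
lemma Wt_nonneg (X : Finset ℕ) (ξ v : ZMod q) : 0 ≤ Wt X ξ v := by
  unfold Wt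
  exact Finset.sum_nonneg (fun x _ => by split_ifs <;> norm_num)

theorem bilinear {q : ℕ} [NeZero q] (X Y : Finset ℕ) (ξ : ZMod q) :
    (annc ξ : ℝ) * ‖bsum X Y ξ‖ ^ 2 ≤ (q : ℝ) * En X ξ * En Y ξ := by
  have hg : (0 : ℝ) < annc ξ := by exact_mod_cast annc_pos ξ
  have h1 : (annc ξ : ℝ) * ‖bsum X Y ξ‖ ≤ ∑ v : ZMod q, Wt X ξ v * ‖Tsum Y ξ v‖ := by
    have : (annc ξ : ℝ) * ‖bsum X Y ξ‖ = ‖(annc ξ : ℂ) * bsum X Y ξ‖ := by
      rw [norm_mul, Complex.norm_natCast]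
    rw [this, annc_mul_bsum]
    refine (norm_sum_le _ _).trans (le_of_eq ?_)
    refine Finset.sum_congr rfl (fun v _ => ?_)
    rw [norm_mul, Complex.norm_real, Real.norm_of_nonneg (Wt_nonneg X ξ v)]
  have h2 : (∑ v : ZMod q, Wt X ξ v * ‖Tsum Y ξ v‖) ^ 2
      ≤ (∑ v : ZMod q, Wt X ξ v ^ 2) * ∑ v : ZMod q, ‖Tsum Y ξ v‖ ^ 2 :=
    Finset.sum_mul_sq_le_sq_mul_sq _ _ _
  rw [sum_Wt_sq, sum_norm_Tsum_sq] at h2
  have h3 : ((annc ξ : ℝ) * ‖bsum X Y ξ‖) ^ 2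
      ≤ (annc ξ : ℝ) * En X ξ * ((q : ℝ) * En Y ξ) :=
    (pow_le_pow_left₀ (by positivity) h1 2).trans h2
  have h4 : (annc ξ : ℝ) * ((annc ξ : ℝ) * ‖bsum X Y ξ‖ ^ 2)
      ≤ (annc ξ : ℝ) * ((q : ℝ) * En X ξ * En Y ξ) := by
    calc (annc ξ : ℝ) * ((annc ξ : ℝ) * ‖bsum X Y ξ‖ ^ 2)
        = ((annc ξ : ℝ) * ‖bsum X Y ξ‖) ^ 2 := by ring
      _ ≤ (annc ξ : ℝ) * En X ξ * ((q : ℝ) * En Y ξ) := h3
      _ = (annc ξ : ℝ) * ((q : ℝ) * En X ξ * En Y ξ) := by ring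
  exact le_of_mul_le_mul_left h4 hg

end Vale.Agent.Lib.P012
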