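import Mathlib
import Vale.Agent.Lib.P012.Defs

namespace Vale.Agent.Lib.P012

open Finset

/-- number of new primes added in one step of epoch `k` -/
def rk (k : ℕ) : ℕ := (2 ^ (k + 1) - 4) / (54 * k + 145)

theorem four_le_two_pow (k : ℕ) (hk : 1 ≤ k) : 4 ≤ 2 ^ (k + 1) := by
  calc 4 = 2 ^ 2 := by norm_num
    _ ≤ 2 ^ (k + 1) := Nat.pow_le_pow_right (by norm_num) (by omega)

theorem rk_mul_le (k : ℕ) (hk : 1 ≤ k) : 4 + rk k * (54 * k + 145) ≤ 2 ^ (k + 1) := by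
  have h1 : rk k * (54 * k + 145) ≤ 2 ^ (k + 1) - 4 := Nat.div_mul_le_self _ _
  have h2 := four_le_two_pow k hk
  omega

theorem rk_le (k : ℕ) : rk k ≤ 2 ^ k := by
  have h1 : rk k * (54 * k + 145) ≤ 2 ^ (k + 1) - 4 := Nat.div_mul_le_self _ _
  have h2 : rk k * 2 ≤ rk k * (54 * k + 145) := Nat.mul_le_mul_left _ (by omega)
  have h3 : 2 ^ (k + 1) = 2 * 2 ^ k := by ring
  omega

theorem lin_le_two_pow (k : ℕ) (hk : 10 ≤ k) : 54 * k + 148 ≤ 2 ^ k := by
  induction k, hk using Nat.le_induction with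
  | base => norm_num
  | succ n hn ih =>
    have : 2 ^ (n + 1) = 2 * 2 ^ n := by ring
    omega

theorem rk_steps (k : ℕ) (hk : 10 ≤ k) : 2 ^ k ≤ (54 * k + 145) * rk k := by
  have h1 : (54 * k + 145) * rk k + (2 ^ (k + 1) - 4) % (54 * k + 145) = 2 ^ (k + 1) - 4 :=
    Nat.div_add_mod _ _
  have h2 : (2 ^ (k + 1) - 4) % (54 * k + 145) < 54 * k + 145 := Nat.mod_lt _ (by omega)
  have h3 := lin_le_two_pow k hk
  have h4 : 2 ^ (k + 1) = 2 * 2 ^ k := by ring
  omega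

theorem rk_pos (k : ℕ) (hk : 10 ≤ k) : 0 < rk k := by
  have h := rk_steps k hk
  rcases Nat.eq_zero_or_pos (rk k) with h0 | h0
  · rw [h0] at h
    have : 0 < 2 ^ k := by positivity
    omega
  · exact h0

theorem param_h1 (k : ℕ) (hk : 1 ≤ k) :
    16 * 2 ^ rk k * (2 ^ (18 * k + 48)) ^ (3 * rk k) ≤ (2 ^ (2 ^ (k - 1))) ^ 4 := by
  have e1 : 16 * 2 ^ rk k * (2 ^ (18 * k + 48)) ^ (3 * rk k)
      = 2 ^ (4 + rk k * (54 * k + 145)) := by
    rw [← pow_mul, show (16 : ℕ) = 2 ^ 4 by norm_num, ← pow_add, ← pow_add]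
    congr 1
    ring
  have e2 : (2 ^ (2 ^ (k - 1))) ^ 4 = 2 ^ (2 ^ (k + 1)) := by
    rw [← pow_mul]
    congr 1
    obtain ⟨j, rfl⟩ : ∃ j, k = j + 1 := ⟨k - 1, by omega⟩
    simp only [Nat.add_sub_cancel]
    ring
  rw [e1, e2]
  exact Nat.pow_le_pow_right (by norm_num) (rk_mul_le k hk)

theorem card_divisors_prod (s : Finset ℕ) (hs : ∀ p ∈ s, p.Prime) :
    (∏ p ∈ s, p).divisors.card = 2 ^ s.card := by
  induction s using Finset.induction_on with
  | empty => simp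
  | insert a s ha ih =>
    have hs' : ∀ p ∈ s, p.Prime := fun p hp => hs p (Finset.mem_insert_of_mem hp)
    have hap : a.Prime := hs a (Finset.mem_insert_self _ _)
    rw [Finset.prod_insert ha, Finset.card_insert_of_notMem ha]
    have hco : Nat.Coprime a (∏ p ∈ s, p) := by
      apply Nat.Coprime.prod_right
      intro p hp
      rw [Nat.coprime_primes hap (hs' p hp)]
      rintro rfl
      exact ha hp
    rw [Nat.Coprime.card_divisors_mul hco, ih hs', Nat.Prime.divisors hap,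
      Finset.card_pair hap.one_lt.ne]
    ring

theorem coprime_prod_prod (s t : Finset ℕ) (hs : ∀ p ∈ s, p.Prime) (ht : ∀ p ∈ t, p.Prime)
    (hd : Disjoint s t) : Nat.Coprime (∏ p ∈ s, p) (∏ p ∈ t, p) := by
  apply Nat.Coprime.prod_left
  intro p hp
  apply Nat.Coprime.prod_right
  intro p' hp'
  rw [Nat.coprime_primes (hs p hp) (ht p' hp')]
  rintro rfl
  exact (Finset.disjoint_left.1 hd hp) hp'

end Vale.Agent.Lib.P012
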