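import Mathlib
import Vale.Agent.Lib.P012.Defs2

/-!
# P012 (V2): a binomial lower bound and the family of subset products
-/

namespace Vale.Agent.Lib.P012

open Finset

theorem pow_le_choose_mul (d : ℕ) (hd : 1 ≤ d) (A : ℕ) : d ^ A ≤ (d * A).choose A := by
  induction A with
  | zero => simp
  | succ A ih =>
    obtain ⟨n, hn⟩ : ∃ n : ℕ, n + 1 = d * (A + 1) := ⟨d * (A + 1) - 1, by
      have : 1 ≤ d * (A + 1) := Nat.mul_pos hd (by omega)
      omega⟩
    have hnA : d * A ≤ n := by nlinarith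
    have h1 : (n + 1) * n.choose A = (n + 1).choose (A + 1) * (A + 1) :=
      Nat.add_one_mul_choose_eq n A
    have h2 : (d * A).choose A ≤ n.choose A := Nat.choose_le_choose A hnA
    have h3 : d ^ (A + 1) * (A + 1) ≤ (d * (A + 1)).choose (A + 1) * (A + 1) := by
      rw [← hn, ← h1, hn]
      calc d ^ (A + 1) * (A + 1) = d * (A + 1) * d ^ A := by ring
        _ ≤ d * (A + 1) * n.choose A := Nat.mul_le_mul_left _ (le_trans ih h2)
    exact Nat.le_of_mul_le_mul_right h3 (by omega)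

theorem two_pow_le_choose (k i : ℕ) (hi : i + 1 ≤ k) :
    2 ^ ((k - 1 - i) * 2 ^ i) ≤ (2 ^ (k - 1)).choose (2 ^ i) := by
  have h := pow_le_choose_mul (2 ^ (k - 1 - i)) Nat.one_le_two_pow (2 ^ i)
  have h1 : 2 ^ (k - 1 - i) * 2 ^ i = 2 ^ (k - 1) := by
    rw [← pow_add]; congr 1; omega
  rw [h1, ← pow_mul] at h
  exact h

theorem prod_injOn_primes (Us : Finset ℕ) (hUs : ∀ p ∈ Us, p.Prime) (A : ℕ) :
    Set.InjOn (fun S : Finset ℕ => ∏ p ∈ S, p) (Us.powersetCard A : Set (Finset ℕ)) := by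
  have key : ∀ S T : Finset ℕ, S ⊆ Us → T ⊆ Us → ∏ p ∈ S, p = ∏ p ∈ T, p → S ⊆ T := by
    intro S T hS hT h p hp
    have hpp : p.Prime := hUs p (hS hp)
    have hdvd : p ∣ ∏ q ∈ T, q := by
      rw [← h]; exact Finset.dvd_prod_of_mem _ hp
    obtain ⟨q, hq, hpq⟩ := (Prime.dvd_finsetProd_iff hpp.prime _).1 hdvd
    have : p = q := (Nat.prime_dvd_prime_iff_eq hpp (hUs q (hT hq))).1 hpq
    rw [this]; exact hq
  intro S hS T hT h
  have hS' := (Finset.mem_powersetCard.1 (Finset.mem_coe.1 hS)).1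
  have hT' := (Finset.mem_powersetCard.1 (Finset.mem_coe.1 hT)).1
  exact Finset.Subset.antisymm (key S T hS' hT' h) (key T S hT' hS' h.symm)

theorem card_prodFam (Us : Finset ℕ) (hUs : ∀ p ∈ Us, p.Prime) (A : ℕ) :
    (prodFam Us A).card = Us.card.choose A := by
  unfold prodFam
  rw [Finset.card_image_of_injOn (prod_injOn_primes Us hUs A), Finset.card_powersetCard]

theorem prodFam_dvd {Us : Finset ℕ} {A x : ℕ} (hx : x ∈ prodFam Us A) : x ∣ ∏ p ∈ Us, p := by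
  unfold prodFam at hx
  obtain ⟨S, hS, rfl⟩ := Finset.mem_image.1 hx
  exact Finset.prod_dvd_prod_of_subset _ _ _ (Finset.mem_powersetCard.1 hS).1

theorem prodFam_le {Us : Finset ℕ} {A x Z : ℕ} (hZ : ∀ p ∈ Us, p ≤ Z) (hx : x ∈ prodFam Us A) :
    x ≤ Z ^ A := by
  unfold prodFam at hx
  obtain ⟨S, hS, rfl⟩ := Finset.mem_image.1 hx
  obtain ⟨hSU, hcard⟩ := Finset.mem_powersetCard.1 hS
  rw [← hcard]
  exact Finset.prod_le_pow_card _ _ _ (fun p hp => hZ p (hSU hp))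

end Vale.Agent.Lib.P012
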