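import Mathlib
import Vale.Agent.Lib.P012.Defs

/-!
# P012, task T3: classification of frequencies `ξ : ZMod q`, `q` squarefree
-/

namespace Vale.Agent.Lib.P012

open Finset

variable {q : ℕ} [NeZero q] {Λ : Finset ℕ}

omit [NeZero q] in
theorem q_dvd_iff (hΛ : ∀ ℓ ∈ Λ, ℓ.Prime) (hq : q = ∏ ℓ ∈ Λ, ℓ) (n : ℕ) :
    q ∣ n ↔ ∀ ℓ ∈ Λ, ℓ ∣ n := by
  constructor
  · intro h ℓ hℓ
    exact (hq ▸ Finset.dvd_prod_of_mem (fun x => x) hℓ : ℓ ∣ q).trans h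
  · intro h
    rw [hq]
    exact Finset.prod_primes_dvd n (fun ℓ hℓ => (hΛ ℓ hℓ).prime) h

omit [NeZero q] in
theorem q_dvd_int_iff (hΛ : ∀ ℓ ∈ Λ, ℓ.Prime) (hq : q = ∏ ℓ ∈ Λ, ℓ) (n : ℤ) :
    (q : ℤ) ∣ n ↔ ∀ ℓ ∈ Λ, (ℓ : ℤ) ∣ n := by
  rw [Int.natCast_dvd, q_dvd_iff hΛ hq]
  constructor
  · intro h ℓ hℓ
    exact Int.natCast_dvd.2 (h ℓ hℓ)
  · intro h ℓ hℓ
    exact Int.natCast_dvd.1 (h ℓ hℓ)

theorem mul_sub_eq_zero_iff (hΛ : ∀ ℓ ∈ Λ, ℓ.Prime) (hq : q = ∏ ℓ ∈ Λ, ℓ) (ξ : ZMod q) (a b : ℕ) :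
    ξ * ((a : ZMod q) - (b : ZMod q)) = 0 ↔ ∀ ℓ ∈ tau Λ ξ, a ≡ b [MOD ℓ] := by
  have h1 : ξ * ((a : ZMod q) - (b : ZMod q)) = (((ξ.val : ℤ) * ((b : ℤ) - a) : ℤ) : ZMod q) * (-1) := by
    push_cast
    rw [ZMod.natCast_zmod_val]
    ring
  rw [h1, mul_neg, mul_one, neg_eq_zero, ZMod.intCast_zmod_eq_zero_iff_dvd, q_dvd_int_iff hΛ hq]
  unfold tau
  constructor
  · intro h ℓ hℓ
    obtain ⟨hℓΛ, hnd⟩ := Finset.mem_filter.1 hℓ
    have hp : Prime (ℓ : ℤ) := Nat.prime_iff_prime_int.1 (hΛ ℓ hℓΛ)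
    rcases hp.dvd_or_dvd (h ℓ hℓΛ) with h2 | h2
    · exact absurd (Int.natCast_dvd_natCast.1 h2) hnd
    · exact Nat.modEq_iff_dvd.2 h2
  · intro h ℓ hℓΛ
    by_cases hd : ℓ ∣ ξ.val
    · exact Dvd.dvd.mul_right (Int.natCast_dvd_natCast.2 hd) _
    · exact Dvd.dvd.mul_left (Nat.modEq_iff_dvd.1 (h ℓ (Finset.mem_filter.2 ⟨hℓΛ, hd⟩))) _

theorem En_eq (hΛ : ∀ ℓ ∈ Λ, ℓ.Prime) (hq : q = ∏ ℓ ∈ Λ, ℓ) (X : Finset ℕ) (ξ : ZMod q) :
    En X ξ = X.card + col X (tau Λ ξ) := by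
  classical
  unfold En col
  have h0 : (X ×ˢ X).filter (fun p => ξ * ((p.1 : ZMod q) - (p.2 : ZMod q)) = 0)
      = (X ×ˢ X).filter (fun p => ∀ ℓ ∈ tau Λ ξ, p.1 ≡ p.2 [MOD ℓ]) := by
    apply Finset.filter_congr
    intro p _
    exact mul_sub_eq_zero_iff hΛ hq ξ p.1 p.2
  rw [h0, ← Finset.card_filter_add_card_filter_not (fun p : ℕ × ℕ => p.1 = p.2),
    Finset.filter_filter, Finset.filter_filter]
  congr 1
  · rw [← Finset.diag_card X]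
    congr 1
    ext p
    simp only [Finset.mem_filter, Finset.mem_product, Finset.mem_diag]
    constructor
    · rintro ⟨⟨h1, _⟩, _, h3⟩
      exact ⟨h1, h3⟩
    · rintro ⟨h1, h3⟩
      exact ⟨⟨h1, h3 ▸ h1⟩, fun ℓ _ => h3 ▸ Nat.ModEq.refl _, h3⟩
  · congr 1
    apply Finset.filter_congr
    intro p _
    exact and_comm

omit [NeZero q] in
theorem prod_split (hq : q = ∏ ℓ ∈ Λ, ℓ) {τ : Finset ℕ} (hτ : τ ⊆ Λ) :
    q = (∏ ℓ ∈ Λ \ τ, ℓ) * ∏ ℓ ∈ τ, ℓ := by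
  rw [hq, Finset.prod_sdiff hτ]

omit [NeZero q] in
theorem tau_subset (ξ : ZMod q) : tau Λ ξ ⊆ Λ := Finset.filter_subset _ _

theorem annc_ge (hΛ : ∀ ℓ ∈ Λ, ℓ.Prime) (hq : q = ∏ ℓ ∈ Λ, ℓ) (ξ : ZMod q) :
    q ≤ annc ξ * ∏ ℓ ∈ tau Λ ξ, ℓ := by
  classical
  set qt := ∏ ℓ ∈ tau Λ ξ, ℓ with hqt
  set qc := ∏ ℓ ∈ Λ \ tau Λ ξ, ℓ with hqc
  have hsplit : q = qc * qt := prod_split hq (tau_subset ξ)
  have hqpos : 0 < q := Nat.pos_of_ne_zero (NeZero.ne q)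
  have hqtpos : 0 < qt := by
    rcases Nat.eq_zero_or_pos qt with h | h
    · rw [h, mul_zero] at hsplit
      omega
    · exact h
  have hcard : qc ≤ annc ξ := by
    unfold annc
    rw [← Finset.card_range qc]
    apply Finset.card_le_card_of_injOn (fun j => ((qt * j : ℕ) : ZMod q))
    · intro j _
      simp only [Finset.coe_filter, Finset.mem_univ, true_and, Set.mem_ofPred_eq]
      have := (mul_sub_eq_zero_iff hΛ hq ξ (qt * j) 0).2 (by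
        intro ℓ hℓ
        have : ℓ ∣ qt * j := Dvd.dvd.mul_right (Finset.dvd_prod_of_mem (fun x => x) hℓ) j
        exact (Nat.modEq_zero_iff_dvd.2 this))
      simpa using this
    · intro i hi j hj hij
      have hi' : qt * i < q := by
        rw [hsplit, mul_comm qc qt]
        exact Nat.mul_lt_mul_of_pos_left (Finset.mem_range.1 (by simpa using hi)) hqtpos
      have hj' : qt * j < q := by
        rw [hsplit, mul_comm qc qt]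
        exact Nat.mul_lt_mul_of_pos_left (Finset.mem_range.1 (by simpa using hj)) hqtpos
      have h1 : (((qt * i : ℕ) : ZMod q)).val = (((qt * j : ℕ) : ZMod q)).val := congrArg ZMod.val hij
      rw [ZMod.val_natCast_of_lt hi', ZMod.val_natCast_of_lt hj'] at h1
      exact Nat.eq_of_mul_eq_mul_left hqtpos h1
  calc q = qc * qt := hsplit
    _ ≤ annc ξ * qt := Nat.mul_le_mul_right _ hcard

theorem card_tau_fiber (hΛ : ∀ ℓ ∈ Λ, ℓ.Prime) (hq : q = ∏ ℓ ∈ Λ, ℓ) (τ : Finset ℕ) :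
    (univ.filter (fun ξ : ZMod q => tau Λ ξ = τ)).card ≤ ∏ ℓ ∈ τ, ℓ := by
  classical
  by_cases hτ : τ ⊆ Λ
  · set qt := ∏ ℓ ∈ τ, ℓ with hqt
    set qc := ∏ ℓ ∈ Λ \ τ, ℓ with hqc
    have hsplit : q = qc * qt := prod_split hq hτ
    have hqpos : 0 < q := Nat.pos_of_ne_zero (NeZero.ne q)
    have hdvd : ∀ ξ : ZMod q, tau Λ ξ = τ → qc ∣ ξ.val := by
      intro ξ hξ
      apply Finset.prod_primes_dvd
      · intro ℓ hℓ
        exact (hΛ ℓ (Finset.mem_sdiff.1 hℓ).1).prime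
      · intro ℓ hℓ
        obtain ⟨h1, h2⟩ := Finset.mem_sdiff.1 hℓ
        by_contra hnd
        exact h2 (hξ ▸ Finset.mem_filter.2 ⟨h1, hnd⟩)
    rw [← Finset.card_range qt]
    apply Finset.card_le_card_of_injOn (fun ξ : ZMod q => ξ.val / qc)
    · intro ξ _
      simp only [Finset.coe_range, Set.mem_Iio]
      apply Nat.div_lt_of_lt_mul
      rw [← hsplit]
      exact ZMod.val_lt ξ
    · intro ξ hξ η hη h
      have hξ' : tau Λ ξ = τ := by simpa using hξ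
      have hη' : tau Λ η = τ := by simpa using hη
      apply ZMod.val_injective q
      have h' : ξ.val / qc = η.val / qc := h
      rw [← Nat.mul_div_cancel' (hdvd ξ hξ'), ← Nat.mul_div_cancel' (hdvd η hη'), h']
  · have : (univ.filter (fun ξ : ZMod q => tau Λ ξ = τ)) = ∅ := by
      apply Finset.filter_eq_empty_iff.2
      intro ξ _ h
      exact hτ (h ▸ tau_subset ξ)
    rw [this]
    simp

theorem tau_eq_empty_iff (hΛ : ∀ ℓ ∈ Λ, ℓ.Prime) (hq : q = ∏ ℓ ∈ Λ, ℓ) (ξ : ZMod q) :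
    tau Λ ξ = ∅ ↔ ξ = 0 := by
  unfold tau
  rw [Finset.filter_eq_empty_iff]
  constructor
  · intro h
    have h1 : q ∣ ξ.val := (q_dvd_iff hΛ hq _).2 (fun ℓ hℓ => not_not.1 (h hℓ))
    have h2 : ξ.val = 0 := Nat.eq_zero_of_dvd_of_lt h1 (ZMod.val_lt ξ)
    exact (ZMod.val_eq_zero ξ).1 h2
  · intro h ℓ _
    rw [h, ZMod.val_zero]
    simp

theorem tau_mul (hΛ : ∀ ℓ ∈ Λ, ℓ.Prime) (hq : q = ∏ ℓ ∈ Λ, ℓ) (t : ℕ)
    (ht : ∀ ℓ ∈ Λ, ¬ ℓ ∣ t) (ξ : ZMod q) :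
    tau Λ ((t : ZMod q) * ξ) = tau Λ ξ := by
  unfold tau
  apply Finset.filter_congr
  intro ℓ hℓ
  have hℓq : ℓ ∣ q := hq ▸ Finset.dvd_prod_of_mem (fun x => x) hℓ
  have h1 : (t : ZMod q) * ξ = ((t * ξ.val : ℕ) : ZMod q) := by
    push_cast
    rw [ZMod.natCast_zmod_val]
  rw [h1, ZMod.val_natCast, Nat.dvd_mod_iff hℓq, (hΛ ℓ hℓ).dvd_mul]
  constructor
  · intro h h2
    exact h (Or.inr h2)
  · intro h h2
    rcases h2 with h2 | h2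
    · exact ht ℓ hℓ h2
    · exact h h2

end Vale.Agent.Lib.P012
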