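import Mathlib
import Vale.Agent.Lib.P012.Defs

/-!
# P012, task T2: solving `∑ t i * x i * y i = c` from a bound on exponential sums
-/

namespace Vale.Agent.Lib.P012

open Finset

lemma bsum_eq_sum_product {q : ℕ} [NeZero q] (X Y : Finset ℕ) (ξ : ZMod q) :
    bsum X Y ξ = ∑ p ∈ X ×ˢ Y, ZMod.stdAddChar (ξ * ((p.1 : ZMod q) * (p.2 : ZMod q))) := by
  unfold bsum
  rw [Finset.sum_product]

lemma bsum_zero {q : ℕ} [NeZero q] (X Y : Finset ℕ) :
    bsum X Y (0 : ZMod q) = (X.card : ℂ) * Y.card := by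
  unfold bsum
  simp

lemma norm_stdAddChar {q : ℕ} [NeZero q] (a : ZMod q) : ‖(ZMod.stdAddChar a : ℂ)‖ = 1 :=
  AddChar.norm_apply _ _

lemma stdAddChar_sum {q : ℕ} [NeZero q] {ι : Type*} (s : Finset ι) (f : ι → ZMod q) :
    (ZMod.stdAddChar (∑ i ∈ s, f i) : ℂ) = ∏ i ∈ s, (ZMod.stdAddChar (f i) : ℂ) := by
  classical
  induction s using Finset.induction_on with
  | empty => simp
  | insert a s ha ih => rw [Finset.sum_insert ha, Finset.prod_insert ha, AddChar.map_add_eq_mul, ih]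

theorem exists_of_sum_lt {q : ℕ} [NeZero q] (X Y : Finset ℕ) (t : Fin 4 → ZMod q) (c : ZMod q)
    (h : ∑ ξ ∈ univ.erase (0 : ZMod q), ∏ i, ‖bsum X Y (t i * ξ)‖
      < ((X.card : ℝ) * Y.card) ^ 4) :
    ∃ x y : Fin 4 → ℕ, (∀ i, x i ∈ X) ∧ (∀ i, y i ∈ Y) ∧
      ∑ i, t i * ((x i : ZMod q) * (y i : ZMod q)) = c := by
  by_contra hno
  -- the full character sum vanishes
  have key : ∑ ξ : ZMod q, (ZMod.stdAddChar (-(ξ * c)) : ℂ) * ∏ i, bsum X Y (t i * ξ) = 0 := by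
    have h1 : ∀ ξ : ZMod q, (ZMod.stdAddChar (-(ξ * c)) : ℂ) * ∏ i, bsum X Y (t i * ξ)
        = ∑ p ∈ Fintype.piFinset (fun _ : Fin 4 => X ×ˢ Y),
            ZMod.stdAddChar (ξ * (∑ i, t i * (((p i).1 : ZMod q) * ((p i).2 : ZMod q)) - c)) := by
      intro ξ
      have h2 : ∏ i, bsum X Y (t i * ξ)
          = ∑ p ∈ Fintype.piFinset (fun _ : Fin 4 => X ×ˢ Y),
            ∏ i, (ZMod.stdAddChar (t i * ξ * (((p i).1 : ZMod q) * ((p i).2 : ZMod q))) : ℂ) := by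
        rw [Finset.prod_congr rfl (fun i _ => bsum_eq_sum_product X Y (t i * ξ))]
        exact Finset.prod_univ_sum (fun _ : Fin 4 => X ×ˢ Y)
          (fun i (p : ℕ × ℕ) => (ZMod.stdAddChar (t i * ξ * ((p.1 : ZMod q) * (p.2 : ZMod q))) : ℂ))
      rw [h2, Finset.mul_sum]
      refine Finset.sum_congr rfl (fun p _ => ?_)
      rw [← stdAddChar_sum, ← AddChar.map_add_eq_mul]
      congr 1
      rw [mul_sub, Finset.mul_sum]
      have : ∀ i : Fin 4, t i * ξ * (((p i).1 : ZMod q) * ((p i).2 : ZMod q))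
          = ξ * (t i * (((p i).1 : ZMod q) * ((p i).2 : ZMod q))) := fun i => by ring
      rw [Finset.sum_congr rfl (fun i _ => this i)]
      ring
    rw [Finset.sum_congr rfl (fun ξ _ => h1 ξ), Finset.sum_comm]
    refine Finset.sum_eq_zero (fun p hp => ?_)
    rw [AddChar.sum_mulShift _ (ZMod.isPrimitive_stdAddChar q)]
    rw [if_neg]
    · simp
    · intro h0
      apply hno
      rw [Fintype.mem_piFinset] at hp
      refine ⟨fun i => (p i).1, fun i => (p i).2, fun i => (Finset.mem_product.mp (hp i)).1,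
        fun i => (Finset.mem_product.mp (hp i)).2, sub_eq_zero.mp h0⟩
  rw [← Finset.add_sum_erase _ _ (Finset.mem_univ (0 : ZMod q))] at key
  have h0 : (ZMod.stdAddChar (-((0 : ZMod q) * c)) : ℂ) * ∏ i, bsum X Y (t i * 0)
      = ((X.card : ℂ) * Y.card) ^ 4 := by
    simp [bsum_zero]
  rw [h0] at key
  have h3 : ((X.card : ℂ) * Y.card) ^ 4
      = - ∑ ξ ∈ univ.erase (0 : ZMod q),
          (ZMod.stdAddChar (-(ξ * c)) : ℂ) * ∏ i, bsum X Y (t i * ξ) :=
    eq_neg_of_add_eq_zero_left key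
  have h4 : ‖((X.card : ℂ) * Y.card) ^ 4‖ = ((X.card : ℝ) * Y.card) ^ 4 := by
    rw [norm_pow, norm_mul, Complex.norm_natCast, Complex.norm_natCast]
  have h5 : ((X.card : ℝ) * Y.card) ^ 4
      ≤ ∑ ξ ∈ univ.erase (0 : ZMod q), ∏ i, ‖bsum X Y (t i * ξ)‖ := by
    rw [← h4, h3, norm_neg]
    refine (norm_sum_le _ _).trans (le_of_eq ?_)
    refine Finset.sum_congr rfl (fun ξ _ => ?_)
    rw [norm_mul, norm_stdAddChar, one_mul, norm_prod]
  exact absurd h (not_lt.mpr h5)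

end Vale.Agent.Lib.P012
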