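import Mathlib
import Vale.Agent.Lib.P012.Defs
import Vale.Agent.Lib.P012.Bilinear
import Vale.Agent.Lib.P012.Count
import Vale.Agent.Lib.P012.Classify

namespace Vale.Agent.Lib.P012

open Finset

theorem prod_four_le {a : Fin 4 → ℝ} {A : ℝ} (h0 : ∀ i, 0 ≤ a i) (h : ∀ i, a i ^ 2 ≤ A) :
    ∏ i, a i ≤ A ^ 2 := by
  rw [Fin.prod_univ_four]
  have h01 : a 0 * a 1 ≤ A := by nlinarith [sq_nonneg (a 0 - a 1), h 0, h 1]
  have h23 : a 2 * a 3 ≤ A := by nlinarith [sq_nonneg (a 2 - a 3), h 2, h 3]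
  have p01 : 0 ≤ a 0 * a 1 := mul_nonneg (h0 0) (h0 1)
  have p23 : 0 ≤ a 2 * a 3 := mul_nonneg (h0 2) (h0 3)
  calc a 0 * a 1 * a 2 * a 3 = (a 0 * a 1) * (a 2 * a 3) := by ring
    _ ≤ A * A := mul_le_mul h01 h23 p23 (p01.trans h01)
    _ = A ^ 2 := by ring

/-- Fourier criterion: if the collision numbers are small then every residue class modulo
`∏ Λ` is of the form `∑ i, t i * x i * y i`. -/
theorem cover_of_col (Λ X Y : Finset ℕ) (hΛ : ∀ ℓ ∈ Λ, ℓ.Prime) (t : Fin 4 → ℕ)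
    (ht : ∀ i, ∀ ℓ ∈ Λ, ¬ ℓ ∣ t i)
    (h : ∑ τ ∈ Λ.powerset.erase ∅,
      (∏ ℓ ∈ τ, ℓ) ^ 3 * ((X.card + col X τ) * (Y.card + col Y τ)) ^ 2
      < (X.card * Y.card) ^ 4) (c : ℕ) :
    ∃ x y : Fin 4 → ℕ, (∀ i, x i ∈ X) ∧ (∀ i, y i ∈ Y) ∧
      ∑ i, t i * x i * y i ≡ c [MOD ∏ ℓ ∈ Λ, ℓ] := by
  obtain ⟨q, hq⟩ : ∃ q, q = ∏ ℓ ∈ Λ, ℓ := ⟨_, rfl⟩
  rw [← hq]
  have hq0 : q ≠ 0 := by
    rw [hq]
    exact Finset.prod_ne_zero_iff.2 (fun ℓ hℓ => (hΛ ℓ hℓ).ne_zero)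
  have : NeZero q := ⟨hq0⟩
  -- the bound for a single sum
  let A : Finset ℕ → ℕ := fun τ => (∏ ℓ ∈ τ, ℓ) * ((X.card + col X τ) * (Y.card + col Y τ))
  have hb : ∀ (i : Fin 4) (ξ : ZMod q),
      ‖bsum X Y ((t i : ZMod q) * ξ)‖ ^ 2 ≤ (A (tau Λ ξ) : ℝ) := by
    intro i ξ
    have h1 := bilinear X Y ((t i : ZMod q) * ξ)
    have h2 := annc_ge hΛ hq ((t i : ZMod q) * ξ)
    rw [En_eq hΛ hq, En_eq hΛ hq, tau_mul hΛ hq (t i) (ht i)] at h1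
    rw [tau_mul hΛ hq (t i) (ht i)] at h2
    set g := annc ((t i : ZMod q) * ξ) with hg
    have hgpos : 0 < g := by
      rcases Nat.eq_zero_or_pos g with h0 | h0
      · rw [h0] at h2
        omega
      · exact h0
    have hgR : (0 : ℝ) < g := by exact_mod_cast hgpos
    have h2R : (q : ℝ) ≤ g * ((∏ ℓ ∈ tau Λ ξ, ℓ : ℕ) : ℝ) := by exact_mod_cast h2
    have h3 : (g : ℝ) * ‖bsum X Y ((t i : ZMod q) * ξ)‖ ^ 2 ≤ g * (A (tau Λ ξ) : ℝ) := by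
      calc (g : ℝ) * ‖bsum X Y ((t i : ZMod q) * ξ)‖ ^ 2
          ≤ (q : ℝ) * ((X.card + col X (tau Λ ξ) : ℕ) : ℝ) * ((Y.card + col Y (tau Λ ξ) : ℕ) : ℝ) := h1
        _ ≤ (g * ((∏ ℓ ∈ tau Λ ξ, ℓ : ℕ) : ℝ)) * ((X.card + col X (tau Λ ξ) : ℕ) : ℝ)
              * ((Y.card + col Y (tau Λ ξ) : ℕ) : ℝ) := by
            gcongr
        _ = g * (A (tau Λ ξ) : ℝ) := by
            simp only [A]
            push_cast
            ring
    exact le_of_mul_le_mul_left h3 hgR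
  have hprod : ∀ ξ : ZMod q,
      ∏ i, ‖bsum X Y ((t i : ZMod q) * ξ)‖ ≤ ((A (tau Λ ξ) ^ 2 : ℕ) : ℝ) := by
    intro ξ
    rw [Nat.cast_pow]
    exact prod_four_le (fun i => norm_nonneg _) (fun i => hb i ξ)
  have hmaps : ∀ ξ ∈ univ.erase (0 : ZMod q), tau Λ ξ ∈ Λ.powerset.erase ∅ := by
    intro ξ hξ
    rw [Finset.mem_erase] at hξ ⊢
    refine ⟨fun h0 => hξ.1 ((tau_eq_empty_iff hΛ hq ξ).1 h0), ?_⟩
    rw [Finset.mem_powerset]
    exact Finset.filter_subset _ _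
  have hsum : ∑ ξ ∈ univ.erase (0 : ZMod q), ∏ i, ‖bsum X Y ((t i : ZMod q) * ξ)‖
      ≤ ((∑ τ ∈ Λ.powerset.erase ∅,
      (∏ ℓ ∈ τ, ℓ) ^ 3 * ((X.card + col X τ) * (Y.card + col Y τ)) ^ 2 : ℕ) : ℝ) := by
    calc ∑ ξ ∈ univ.erase (0 : ZMod q), ∏ i, ‖bsum X Y ((t i : ZMod q) * ξ)‖
        ≤ ∑ ξ ∈ univ.erase (0 : ZMod q), ((A (tau Λ ξ) ^ 2 : ℕ) : ℝ) :=
          Finset.sum_le_sum (fun ξ _ => hprod ξ)
      _ = ((∑ ξ ∈ univ.erase (0 : ZMod q), A (tau Λ ξ) ^ 2 : ℕ) : ℝ) := by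
          rw [Nat.cast_sum]
      _ ≤ _ := by
          rw [Nat.cast_le, ← Finset.sum_fiberwise_of_maps_to hmaps]
          apply Finset.sum_le_sum
          intro τ _
          calc ∑ ξ ∈ (univ.erase (0 : ZMod q)).filter (fun ξ => tau Λ ξ = τ), A (tau Λ ξ) ^ 2
              = ∑ ξ ∈ (univ.erase (0 : ZMod q)).filter (fun ξ => tau Λ ξ = τ), A τ ^ 2 := by
                apply Finset.sum_congr rfl
                intro ξ hξ
                rw [(Finset.mem_filter.1 hξ).2]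
            _ = ((univ.erase (0 : ZMod q)).filter (fun ξ => tau Λ ξ = τ)).card * A τ ^ 2 := by
                rw [Finset.sum_const, smul_eq_mul]
            _ ≤ (∏ ℓ ∈ τ, ℓ) * A τ ^ 2 := by
                apply Nat.mul_le_mul_right
                refine le_trans (Finset.card_le_card ?_) (card_tau_fiber hΛ hq τ)
                exact Finset.filter_subset_filter _ (Finset.erase_subset _ _)
            _ = _ := by
                simp only [A]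
                ring
  have hlt : ∑ ξ ∈ univ.erase (0 : ZMod q), ∏ i, ‖bsum X Y ((t i : ZMod q) * ξ)‖
      < ((X.card : ℝ) * Y.card) ^ 4 := by
    refine lt_of_le_of_lt hsum ?_
    have : ((X.card : ℝ) * Y.card) ^ 4 = (((X.card * Y.card) ^ 4 : ℕ) : ℝ) := by push_cast; ring
    rw [this, Nat.cast_lt]
    exact h
  obtain ⟨x, y, hx, hy, hxy⟩ := exists_of_sum_lt X Y (fun i => (t i : ZMod q)) (c : ZMod q) hlt
  refine ⟨x, y, hx, hy, ?_⟩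
  rw [← ZMod.natCast_eq_natCast_iff]
  rw [← hxy]
  push_cast
  apply Finset.sum_congr rfl
  intro i _
  ring

end Vale.Agent.Lib.P012
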