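import Mathlib
import Vale.Agent.Lib.P012.Defs

/-!
# P012, task T5: the main inequality
-/

namespace Vale.Agent.Lib.P012

open Finset

/-- `(u + w)^4 ≤ 8 (u^4 + w^4)`. -/
theorem add_pow_four_le (u w : ℝ) : (u + w) ^ 4 ≤ 8 * (u ^ 4 + w ^ 4) := by
  nlinarith [sq_nonneg (u - w), sq_nonneg (u + w), sq_nonneg (u ^ 2 - w ^ 2),
    mul_nonneg (sq_nonneg (u - w)) (sq_nonneg (u + w)), sq_nonneg (u ^ 2 + w ^ 2 - 2 * u * w),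
    mul_nonneg (sq_nonneg (u - w)) (add_nonneg (sq_nonneg u) (sq_nonneg w))]

/-- bound of a single summand -/
theorem summand_le (V cX cY w q : ℝ) (hV : 0 < V) (hcX : 0 ≤ cX) (hcY : 0 ≤ cY) (hq : 0 ≤ q)
    (hX : cX ≤ w * V ^ 2) (hY : cY ≤ w * V ^ 2) :
    q ^ 3 * ((V + cX) * (V + cY)) ^ 2 ≤ 8 * q ^ 3 * V ^ 4 + 8 * V ^ 8 * (q ^ 3 * w ^ 4) := by
  have hw : 0 ≤ w := by
    by_contra h
    have : w * V ^ 2 < 0 := mul_neg_of_neg_of_pos (not_le.1 h) (by positivity)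
    linarith
  have h1 : V + cX ≤ V + w * V ^ 2 := by linarith
  have h2 : V + cY ≤ V + w * V ^ 2 := by linarith
  have h3 : (V + cX) * (V + cY) ≤ (V + w * V ^ 2) * (V + w * V ^ 2) :=
    mul_le_mul h1 h2 (by positivity) (by positivity)
  have h4 : ((V + cX) * (V + cY)) ^ 2 ≤ ((V + w * V ^ 2) * (V + w * V ^ 2)) ^ 2 :=
    pow_le_pow_left₀ (by positivity) h3 2
  have h5 : ((V + w * V ^ 2) * (V + w * V ^ 2)) ^ 2 = (V + w * V ^ 2) ^ 4 := by ring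
  have h6 := add_pow_four_le V (w * V ^ 2)
  have h7 : ((V + cX) * (V + cY)) ^ 2 ≤ 8 * (V ^ 4 + (w * V ^ 2) ^ 4) := by
    rw [h5] at h4; exact h4.trans h6
  have h8 : q ^ 3 * ((V + cX) * (V + cY)) ^ 2 ≤ q ^ 3 * (8 * (V ^ 4 + (w * V ^ 2) ^ 4)) :=
    mul_le_mul_of_nonneg_left h7 (by positivity)
  calc q ^ 3 * ((V + cX) * (V + cY)) ^ 2 ≤ q ^ 3 * (8 * (V ^ 4 + (w * V ^ 2) ^ 4)) := h8
    _ = 8 * q ^ 3 * V ^ 4 + 8 * V ^ 8 * (q ^ 3 * w ^ 4) := by ring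

/-- the geometric part of the sum -/
theorem sum_prod_le (Λ : Finset ℕ) (Z r : ℕ) (B : ℝ) (hB : 0 ≤ B) (hΛc : Λ.card = r)
    (hΛZ : ∀ ℓ ∈ Λ, ℓ ≤ Z) (h2 : (r : ℝ) * (Z : ℝ) ^ 3 * B ^ 4 ≤ 1 / 65536) :
    ∑ τ ∈ Λ.powerset.erase ∅, ∏ ℓ ∈ τ, ((ℓ : ℝ) ^ 3 * B ^ 4) ≤ 2 / 65536 := by
  have hmem : (∅ : Finset ℕ) ∈ Λ.powerset := by simp
  rw [Finset.sum_erase_eq_sub hmem, ← Finset.prod_one_add, Finset.prod_empty]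
  set a : ℝ := (Z : ℝ) ^ 3 * B ^ 4 with ha
  have ha0 : 0 ≤ a := by positivity
  have hx : (r : ℝ) * a ≤ 1 / 65536 := by rw [ha, ← mul_assoc]; exact h2
  have hx0 : 0 ≤ (r : ℝ) * a := by positivity
  have h3 : ∏ ℓ ∈ Λ, (1 + (ℓ : ℝ) ^ 3 * B ^ 4) ≤ ∏ _ℓ ∈ Λ, (1 + a) := by
    apply Finset.prod_le_prod
    · intro i _; positivity
    · intro i hi
      have : (i : ℝ) ≤ (Z : ℝ) := by exact_mod_cast hΛZ i hi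
      have h4 : (i : ℝ) ^ 3 ≤ (Z : ℝ) ^ 3 := pow_le_pow_left₀ (by positivity) this 3
      have h5 : (i : ℝ) ^ 3 * B ^ 4 ≤ a := mul_le_mul_of_nonneg_right h4 (by positivity)
      linarith
  rw [Finset.prod_const, hΛc] at h3
  have h6 : (1 + a) ^ r ≤ Real.exp ((r : ℝ) * a) := by
    rw [Real.exp_nat_mul]
    apply pow_le_pow_left₀ (by positivity)
    have := Real.add_one_le_exp a
    linarith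
  have h7 : |Real.exp ((r : ℝ) * a) - 1| ≤ 2 * |(r : ℝ) * a| := by
    apply Real.abs_exp_sub_one_le
    rw [abs_of_nonneg hx0]; linarith
  rw [abs_of_nonneg hx0] at h7
  have h8 := le_abs_self (Real.exp ((r : ℝ) * a) - 1)
  linarith

/-- the counting part of the sum -/
theorem sum_cube_le (Λ : Finset ℕ) (Z r : ℕ) (hZ : 1 ≤ Z) (hΛc : Λ.card = r)
    (hΛZ : ∀ ℓ ∈ Λ, ℓ ≤ Z) :
    ∑ τ ∈ Λ.powerset.erase ∅, ((∏ ℓ ∈ τ, ℓ : ℕ) : ℝ) ^ 3 ≤ (2 : ℝ) ^ r * (Z : ℝ) ^ (3 * r) := by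
  have h1 : ∀ τ ∈ Λ.powerset.erase ∅, ((∏ ℓ ∈ τ, ℓ : ℕ) : ℝ) ^ 3 ≤ (Z : ℝ) ^ (3 * r) := by
    intro τ hτ
    have hsub : τ ⊆ Λ := Finset.mem_powerset.1 (Finset.mem_of_mem_erase hτ)
    have h2 : (∏ ℓ ∈ τ, ℓ : ℕ) ≤ Z ^ τ.card :=
      Finset.prod_le_pow_card τ (fun ℓ => ℓ) Z (fun x hx => hΛZ x (hsub hx))
    have h3 : Z ^ τ.card ≤ Z ^ r := by
      apply Nat.pow_le_pow_right hZ
      rw [← hΛc]; exact Finset.card_le_card hsub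
    have h4 : ((∏ ℓ ∈ τ, ℓ : ℕ) : ℝ) ≤ (Z : ℝ) ^ r := by exact_mod_cast h2.trans h3
    calc ((∏ ℓ ∈ τ, ℓ : ℕ) : ℝ) ^ 3 ≤ ((Z : ℝ) ^ r) ^ 3 := pow_le_pow_left₀ (by positivity) h4 3
      _ = (Z : ℝ) ^ (3 * r) := by rw [← pow_mul, mul_comm]
  have h5 := Finset.sum_le_card_nsmul _ _ _ h1
  have h6 : ((Λ.powerset.erase ∅).card : ℝ) ≤ (2 : ℝ) ^ r := by
    have : (Λ.powerset.erase ∅).card ≤ 2 ^ r := by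
      rw [← hΛc, ← Finset.card_powerset]; exact Finset.card_erase_le
    exact_mod_cast this
  rw [nsmul_eq_mul] at h5
  exact h5.trans (mul_le_mul_of_nonneg_right h6 (by positivity))

theorem main_ineq (Λ X Y : Finset ℕ) (V Z r : ℕ) (B : ℝ) (hB : 0 ≤ B) (hZ : 1 ≤ Z)
    (hXc : X.card = V) (hYc : Y.card = V) (hV : 0 < V) (hΛc : Λ.card = r)
    (hΛZ : ∀ ℓ ∈ Λ, ℓ ≤ Z)
    (hcol : ∀ τ ⊆ Λ, (col X τ : ℝ) / (X.card : ℝ) ^ 2 + (col Y τ : ℝ) / (Y.card : ℝ) ^ 2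
      ≤ 6 * B ^ τ.card)
    (h1 : 16 * 2 ^ r * Z ^ (3 * r) ≤ V ^ 4)
    (h2 : (r : ℝ) * (Z : ℝ) ^ 3 * B ^ 4 ≤ 1 / 65536) :
    ∑ τ ∈ Λ.powerset.erase ∅,
      (∏ ℓ ∈ τ, ℓ) ^ 3 * ((X.card + col X τ) * (Y.card + col Y τ)) ^ 2
      < (X.card * Y.card) ^ 4 := by
  rw [hXc, hYc]
  rw [hXc, hYc] at hcol
  have hVr : (0 : ℝ) < (V : ℝ) := by exact_mod_cast hV
  -- termwise bound
  have hterm : ∀ τ ∈ Λ.powerset.erase ∅,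
      ((∏ ℓ ∈ τ, ℓ : ℕ) : ℝ) ^ 3 * (((V : ℝ) + (col X τ : ℝ)) * ((V : ℝ) + (col Y τ : ℝ))) ^ 2
        ≤ 8 * ((∏ ℓ ∈ τ, ℓ : ℕ) : ℝ) ^ 3 * (V : ℝ) ^ 4
          + 8 * (V : ℝ) ^ 8 * (1296 * ∏ ℓ ∈ τ, ((ℓ : ℝ) ^ 3 * B ^ 4)) := by
    intro τ hτ
    have hsub : τ ⊆ Λ := Finset.mem_powerset.1 (Finset.mem_of_mem_erase hτ)
    have hc := hcol τ hsub
    have hV2 : (0 : ℝ) < (V : ℝ) ^ 2 := by positivity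
    have hx0 : (0 : ℝ) ≤ (col X τ : ℝ) / (V : ℝ) ^ 2 := by positivity
    have hy0 : (0 : ℝ) ≤ (col Y τ : ℝ) / (V : ℝ) ^ 2 := by positivity
    have hX : (col X τ : ℝ) ≤ (6 * B ^ τ.card) * (V : ℝ) ^ 2 := by
      rw [← div_le_iff₀ hV2]; linarith
    have hY : (col Y τ : ℝ) ≤ (6 * B ^ τ.card) * (V : ℝ) ^ 2 := by
      rw [← div_le_iff₀ hV2]; linarith
    have hs := summand_le (V : ℝ) (col X τ : ℝ) (col Y τ : ℝ) (6 * B ^ τ.card)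
      ((∏ ℓ ∈ τ, ℓ : ℕ) : ℝ) hVr (by positivity) (by positivity) (by positivity) hX hY
    have heq : ((∏ ℓ ∈ τ, ℓ : ℕ) : ℝ) ^ 3 * (6 * B ^ τ.card) ^ 4
        = 1296 * ∏ ℓ ∈ τ, ((ℓ : ℝ) ^ 3 * B ^ 4) := by
      rw [Finset.prod_mul_distrib, Finset.prod_pow, Finset.prod_const, Nat.cast_prod]
      ring
    rw [heq] at hs
    exact hs
  have hsum := Finset.sum_le_sum hterm
  rw [Finset.sum_add_distrib] at hsum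
  have hA : ∑ τ ∈ Λ.powerset.erase ∅, 8 * ((∏ ℓ ∈ τ, ℓ : ℕ) : ℝ) ^ 3 * (V : ℝ) ^ 4
      ≤ (V : ℝ) ^ 8 / 2 := by
    have e : ∑ τ ∈ Λ.powerset.erase ∅, 8 * ((∏ ℓ ∈ τ, ℓ : ℕ) : ℝ) ^ 3 * (V : ℝ) ^ 4
        = 8 * (V : ℝ) ^ 4 * ∑ τ ∈ Λ.powerset.erase ∅, ((∏ ℓ ∈ τ, ℓ : ℕ) : ℝ) ^ 3 := by
      rw [Finset.mul_sum]
      apply Finset.sum_congr rfl
      intro τ _; ring
    rw [e]
    have h3 := sum_cube_le Λ Z r hZ hΛc hΛZ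
    have h1r : (16 : ℝ) * 2 ^ r * (Z : ℝ) ^ (3 * r) ≤ (V : ℝ) ^ 4 := by exact_mod_cast h1
    have h4 : 8 * (V : ℝ) ^ 4 * ∑ τ ∈ Λ.powerset.erase ∅, ((∏ ℓ ∈ τ, ℓ : ℕ) : ℝ) ^ 3
        ≤ 8 * (V : ℝ) ^ 4 * ((2 : ℝ) ^ r * (Z : ℝ) ^ (3 * r)) :=
      mul_le_mul_of_nonneg_left h3 (by positivity)
    have h5 : 8 * (V : ℝ) ^ 4 * ((2 : ℝ) ^ r * (Z : ℝ) ^ (3 * r)) ≤ (V : ℝ) ^ 8 / 2 := by
      have : (V : ℝ) ^ 4 * ((16 : ℝ) * 2 ^ r * (Z : ℝ) ^ (3 * r)) ≤ (V : ℝ) ^ 4 * (V : ℝ) ^ 4 :=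
        mul_le_mul_of_nonneg_left h1r (by positivity)
      nlinarith [this]
    exact h4.trans h5
  have hBsum : ∑ τ ∈ Λ.powerset.erase ∅,
      8 * (V : ℝ) ^ 8 * (1296 * ∏ ℓ ∈ τ, ((ℓ : ℝ) ^ 3 * B ^ 4))
      ≤ (V : ℝ) ^ 8 * (20736 / 65536) := by
    have e : ∑ τ ∈ Λ.powerset.erase ∅,
        8 * (V : ℝ) ^ 8 * (1296 * ∏ ℓ ∈ τ, ((ℓ : ℝ) ^ 3 * B ^ 4))
        = 10368 * (V : ℝ) ^ 8 * ∑ τ ∈ Λ.powerset.erase ∅, ∏ ℓ ∈ τ, ((ℓ : ℝ) ^ 3 * B ^ 4) := by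
      rw [Finset.mul_sum]
      apply Finset.sum_congr rfl
      intro τ _; ring
    rw [e]
    have h3 := sum_prod_le Λ Z r B hB hΛc hΛZ h2
    have h4 : 10368 * (V : ℝ) ^ 8 * ∑ τ ∈ Λ.powerset.erase ∅, ∏ ℓ ∈ τ, ((ℓ : ℝ) ^ 3 * B ^ 4)
        ≤ 10368 * (V : ℝ) ^ 8 * (2 / 65536) := mul_le_mul_of_nonneg_left h3 (by positivity)
    linarith
  have hV8 : (0 : ℝ) < (V : ℝ) ^ 8 := by positivity
  have hfinal : ∑ τ ∈ Λ.powerset.erase ∅,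
      ((∏ ℓ ∈ τ, ℓ : ℕ) : ℝ) ^ 3 * (((V : ℝ) + (col X τ : ℝ)) * ((V : ℝ) + (col Y τ : ℝ))) ^ 2
      < ((V : ℝ) * (V : ℝ)) ^ 4 := by
    have : ((V : ℝ) * (V : ℝ)) ^ 4 = (V : ℝ) ^ 8 := by ring
    rw [this]
    nlinarith [hsum, hA, hBsum, hV8]
  exact_mod_cast hfinal

end Vale.Agent.Lib.P012
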