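import Mathlib
import Vale.Agent.Lib.P012.Defs

namespace Vale.Agent.Lib.P012

open Finset

theorem sixteen_pow_four_le (j : ℕ) (hj : 24 ≤ j) : 16 * j ^ 4 ≤ 2 ^ j := by
  induction j, hj using Nat.le_induction with
  | base => norm_num
  | succ j hj ih =>
    have h1 : (j + 1) ^ 4 ≤ 2 * j ^ 4 := by
      have h6 : 6 ≤ j := by omega
      obtain ⟨t, rfl⟩ := Nat.exists_eq_add_of_le h6
      ring_nf
      nlinarith [sq_nonneg t, Nat.zero_le t, Nat.zero_le (t ^ 2), Nat.zero_le (t ^ 3),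
        Nat.zero_le (t ^ 4)]
    calc 16 * (j + 1) ^ 4 ≤ 16 * (2 * j ^ 4) := by gcongr
      _ = 2 * (16 * j ^ 4) := by ring
      _ ≤ 2 * 2 ^ j := by gcongr
      _ = 2 ^ (j + 1) := by ring

theorem param_h2_abs (R m Z T r c : ℝ) (hR : 0 < R) (hm : 0 < m) (hT : 0 < T)
    (hZ : Z = R ^ 18 * T ^ 2) (hT' : 16777216 ≤ T)
    (hkey : m ^ 4 ≤ R ^ 9 * T) (hr0 : 0 ≤ r) (hrR : r ≤ R) (hc : Z / (2 * m) ≤ c) :
    r * Z ^ 3 * (2 * R * r / c) ^ 4 ≤ 1 / 65536 := by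
  have hZpos : 0 < Z := by rw [hZ]; positivity
  have hcpos : 0 < c := lt_of_lt_of_le (by positivity) hc
  have hfrac : 2 * R * r / c ≤ 4 * m * R * R / Z := by
    rw [div_le_div_iff₀ hcpos hZpos]
    have h1 : Z ≤ c * (2 * m) := by
      rwa [div_le_iff₀ (by positivity)] at hc
    calc 2 * R * r * Z ≤ 2 * R * R * (c * (2 * m)) := by gcongr
      _ = 4 * m * R * R * c := by ring
  have hfrac0 : 0 ≤ 2 * R * r / c := by positivity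
  calc r * Z ^ 3 * (2 * R * r / c) ^ 4
      ≤ R * Z ^ 3 * (4 * m * R * R / Z) ^ 4 := by gcongr
    _ = 256 * m ^ 4 * R ^ 9 / Z := by
        field_simp
        ring
    _ ≤ 256 * (R ^ 9 * T) * R ^ 9 / Z := by gcongr
    _ = 256 / T := by
        rw [hZ]
        field_simp
    _ ≤ 1 / 65536 := by
        rw [div_le_div_iff₀ hT (by norm_num)]
        linarith

theorem param_h2 (k r : ℕ) (c : ℝ) (hr : r ≤ 2 ^ k)
    (hc : (2 : ℝ) ^ (18 * k + 48) / (2 * (18 * k + 48)) ≤ c) :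
    (r : ℝ) * ((2 ^ (18 * k + 48) : ℕ) : ℝ) ^ 3 * (2 * ((2 ^ k : ℕ) : ℝ) * r / c) ^ 4
      ≤ 1 / 65536 := by
  have hcast1 : ((2 ^ (18 * k + 48) : ℕ) : ℝ) = (2 : ℝ) ^ (18 * k + 48) := by
    rw [Nat.cast_pow]; rfl
  have hcast2 : ((2 ^ k : ℕ) : ℝ) = (2 : ℝ) ^ k := by
    rw [Nat.cast_pow]; rfl
  rw [hcast1, hcast2]
  have hrR : (r : ℝ) ≤ (2 : ℝ) ^ k := by
    have : ((r : ℕ) : ℝ) ≤ ((2 ^ k : ℕ) : ℝ) := Nat.cast_le.mpr hr
    rwa [hcast2] at this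
  have hkey : (18 * (k : ℝ) + 48) ^ 4 ≤ ((2 : ℝ) ^ k) ^ 9 * 16777216 := by
    have h := sixteen_pow_four_le (9 * k + 24) (by omega)
    have h' : ((16 * (9 * k + 24) ^ 4 : ℕ) : ℝ) ≤ ((2 ^ (9 * k + 24) : ℕ) : ℝ) :=
      Nat.cast_le.mpr h
    have e0 : ((2 ^ (9 * k + 24) : ℕ) : ℝ) = (2 : ℝ) ^ (9 * k + 24) := by
      rw [Nat.cast_pow]; rfl
    have e00 : ((16 * (9 * k + 24) ^ 4 : ℕ) : ℝ) = 16 * (9 * (k : ℝ) + 24) ^ 4 := by
      push_cast; ring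
    have e1 : (18 * (k : ℝ) + 48) ^ 4 = 16 * (9 * (k : ℝ) + 24) ^ 4 := by ring
    have e2 : (2 : ℝ) ^ (9 * k + 24) = ((2 : ℝ) ^ k) ^ 9 * 16777216 := by
      rw [pow_add, ← pow_mul, mul_comm k 9]
      norm_num
    rw [e1, ← e2, ← e0, ← e00]; exact h'
  have hZ : (2 : ℝ) ^ (18 * k + 48) = ((2 : ℝ) ^ k) ^ 18 * (16777216 : ℝ) ^ 2 := by
    rw [pow_add, ← pow_mul, mul_comm k 18]
    norm_num
  have hRpos : (0 : ℝ) < (2 : ℝ) ^ k := pow_pos (by norm_num) k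
  have hmpos : (0 : ℝ) < 18 * (k : ℝ) + 48 := by
    have := Nat.cast_nonneg (α := ℝ) k
    linarith
  generalize (2 : ℝ) ^ (18 * k + 48) = Z at *
  generalize (2 : ℝ) ^ k = R at *
  exact param_h2_abs R (18 * (k : ℝ) + 48) Z 16777216 r c hRpos hmpos (by norm_num) hZ le_rfl
    hkey (Nat.cast_nonneg r) hrR hc

end Vale.Agent.Lib.P012
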