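import Mathlib
import Vale.Agent.Lib.P012.Defs

namespace Vale.Agent.Lib.P012

open Finset

theorem pi_two_pow_ge (m : ℕ) (hm : 1 ≤ m) :
    (2 : ℝ) ^ m / m - 2 ≤ (Nat.primeCounting (2 ^ m) : ℝ) := by
  have h := Chebyshev.pi_ge (2 ^ m)
  push_cast at h
  refine le_trans ?_ h
  have hl2 : 0 < Real.log 2 := Real.log_pos (by norm_num)
  have hmR : (1 : ℝ) ≤ (m : ℝ) := by exact_mod_cast hm
  have hm0 : (0 : ℝ) < (m : ℝ) := by linarith
  have hlog : Real.log ((2 : ℝ) ^ m) = m * Real.log 2 := by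
    rw [Real.log_pow]
  have hlog1 : Real.log ((2 : ℝ) ^ m + 1) ≤ (m + 1) * Real.log 2 := by
    have h1 : (2 : ℝ) ^ m + 1 ≤ (2 : ℝ) ^ (m + 1) := by
      have : (1 : ℝ) ≤ (2 : ℝ) ^ m := one_le_pow₀ (by norm_num)
      rw [pow_succ]
      linarith
    have h2 := Real.log_le_log (by positivity) h1
    rw [Real.log_pow] at h2
    push_cast at h2
    exact h2
  rw [hlog, le_div_iff₀ (by positivity)]
  have e1 : ((2 : ℝ) ^ m / m - 2) * (m * Real.log 2) = ((2 : ℝ) ^ m - 2 * m) * Real.log 2 := by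
    field_simp
  rw [e1]
  have h3 : ((2 : ℝ) ^ m - 2 * m) * Real.log 2 ≤ ((2 : ℝ) ^ m - (m + 1)) * Real.log 2 := by
    apply mul_le_mul_of_nonneg_right _ hl2.le
    linarith
  nlinarith

theorem pool_card (k : ℕ) (P : Finset ℕ) (hP : P.card ≤ 2 ^ (2 * k + 2)) :
    (2 : ℝ) ^ (18 * k + 48) / (2 * (18 * k + 48))
      ≤ ((((Finset.Ioc (2 ^ (9 * k + 24)) (2 ^ (18 * k + 48))).filter Nat.Prime) \ P).card : ℝ) := by
  classical
  obtain ⟨z, hz⟩ : ∃ z : ℕ, z = 2 ^ (9 * k + 24) := ⟨_, rfl⟩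
  obtain ⟨Z, hZ⟩ : ∃ Z : ℕ, Z = 2 ^ (18 * k + 48) := ⟨_, rfl⟩
  rw [← hz, ← hZ]
  obtain ⟨A, hA⟩ : ∃ A : Finset ℕ, A = (Finset.Ioc z Z).filter Nat.Prime := ⟨_, rfl⟩
  rw [← hA]
  -- counting
  have hpi : Nat.primeCounting Z ≤ A.card + z := by
    have h1 : Nat.primeCounting Z = ((Finset.range (Z + 1)).filter Nat.Prime).card := by
      rw [Nat.primeCounting, Nat.primeCounting', Nat.count_eq_card_filter_range]
    rw [h1]
    have hsub : (Finset.range (Z + 1)).filter Nat.Prime ⊆ A ∪ Finset.Ioc 0 z := by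
      intro p hp
      rw [Finset.mem_filter, Finset.mem_range] at hp
      rw [Finset.mem_union]
      by_cases hpz : p ≤ z
      · right
        rw [Finset.mem_Ioc]
        exact ⟨hp.2.pos, hpz⟩
      · left
        rw [hA, Finset.mem_filter, Finset.mem_Ioc]
        exact ⟨⟨by omega, by omega⟩, hp.2⟩
    refine (Finset.card_le_card hsub).trans ((Finset.card_union_le _ _).trans ?_)
    simp
  have hsd : A.card ≤ (A \ P).card + P.card := by
    have := Finset.le_card_sdiff P A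
    omega
  have hmain : Nat.primeCounting Z ≤ (A \ P).card + 2 ^ (2 * k + 2) + z := by omega
  have hmainR : (Nat.primeCounting Z : ℝ) ≤ ((A \ P).card : ℝ) + (2 : ℝ) ^ (2 * k + 2) + (z : ℝ) := by
    exact_mod_cast hmain
  have hpiR := pi_two_pow_ge (18 * k + 48) (by omega)
  rw [← hZ] at hpiR
  push_cast at hpiR
  -- numerics
  have hzR : (z : ℝ) = (2 : ℝ) ^ (9 * k + 24) := by
    rw [hz, Nat.cast_pow, Nat.cast_ofNat]
  have hZz : (2 : ℝ) ^ (18 * k + 48) = (z : ℝ) * (z : ℝ) := by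
    rw [hzR, ← pow_add]
    congr 1
    omega
  have hz6 : 6 * (18 * (k : ℝ) + 48) ≤ (z : ℝ) := by
    have h1 : 9 * k < 2 ^ (9 * k) := Nat.lt_two_pow_self
    have h2 : 6 * (18 * k + 48) ≤ z := by
      rw [hz, pow_add]
      have : 9 * k + 1 ≤ 2 ^ (9 * k) := h1
      calc 6 * (18 * k + 48) ≤ (9 * k + 1) * 2 ^ 24 := by norm_num; omega
        _ ≤ 2 ^ (9 * k) * 2 ^ 24 := Nat.mul_le_mul_right _ this
    exact_mod_cast h2
  have hz2 : (2 : ℝ) ≤ (z : ℝ) := by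
    have : (0 : ℝ) ≤ (k : ℝ) := Nat.cast_nonneg k
    linarith
  have hzk : (2 : ℝ) ^ (2 * k + 2) ≤ (z : ℝ) := by
    rw [hzR]
    exact pow_le_pow_right₀ (by norm_num) (by omega)
  have hm0 : (0 : ℝ) < 18 * (k : ℝ) + 48 := by
    have : (0 : ℝ) ≤ (k : ℝ) := Nat.cast_nonneg k
    linarith
  -- abstract the big power and the linear term
  obtain ⟨W, hW⟩ : ∃ W : ℝ, W = (2 : ℝ) ^ (18 * k + 48) := ⟨_, rfl⟩
  obtain ⟨m, hm⟩ : ∃ m : ℝ, m = 18 * (k : ℝ) + 48 := ⟨_, rfl⟩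
  obtain ⟨V, hV⟩ : ∃ V : ℝ, V = (2 : ℝ) ^ (2 * k + 2) := ⟨_, rfl⟩
  rw [← hW, ← hm] at hpiR
  rw [← hW] at hZz
  rw [← hm] at hz6 hm0
  rw [← hV] at hzk hmainR
  rw [← hW, ← hm]
  clear hW hm hV hzR hz hZ hA hmain hsd hpi hP
  have h3z : 3 * (z : ℝ) ≤ W / (2 * m) := by
    rw [le_div_iff₀ (by positivity), hZz]
    have hz0 : (0 : ℝ) ≤ (z : ℝ) := by linarith
    nlinarith
  have hsplit : W / m = 2 * (W / (2 * m)) := by
    field_simp
  rw [hsplit] at hpiR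
  linarith

end Vale.Agent.Lib.P012
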