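import Mathlib
import Vale.Agent.Lib.P012.Defs

/-!
# P012, task T4: greedy selection of a set of primes with few collisions
-/

namespace Vale.Agent.Lib.P012

open Finset

theorem card_filter_modEq_le_aux (Q : Finset ℕ) (z R : ℕ) (hQ : ∀ ℓ ∈ Q, ℓ.Prime ∧ z < ℓ)
    (hR : 0 < R) {a b : ℕ} (hab : a < b) (hb : b ≤ z ^ R) :
    (Q.filter (fun ℓ => a ≡ b [MOD ℓ])).card ≤ R := by
  classical
  set S := Q.filter (fun ℓ => a ≡ b [MOD ℓ]) with hS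
  by_contra hlt
  push Not at hlt
  have hdvd : (∏ ℓ ∈ S, ℓ) ∣ (b - a) := by
    apply Finset.prod_primes_dvd
    · intro ℓ hℓ
      exact ((hQ ℓ (Finset.mem_filter.1 hℓ).1).1).prime
    · intro ℓ hℓ
      exact (Nat.modEq_iff_dvd' hab.le).1 (Finset.mem_filter.1 hℓ).2
  have hle : (∏ ℓ ∈ S, ℓ) ≤ b - a := Nat.le_of_dvd (Nat.sub_pos_of_lt hab) hdvd
  have hge : (z + 1) ^ S.card ≤ ∏ ℓ ∈ S, ℓ := by
    apply Finset.pow_card_le_prod
    intro ℓ hℓ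
    exact (hQ ℓ (Finset.mem_filter.1 hℓ).1).2
  have h1 : z ^ R < (z + 1) ^ R := Nat.pow_lt_pow_left (Nat.lt_succ_self z) hR.ne'
  have h2 : (z + 1) ^ R ≤ (z + 1) ^ S.card := Nat.pow_le_pow_right (Nat.succ_pos z) hlt.le
  omega

/-- at most `R` primes of `Q` (all `> z`) divide the difference of two distinct numbers
`≤ z ^ R` -/
theorem card_filter_modEq_le (Q : Finset ℕ) (z R : ℕ) (hQ : ∀ ℓ ∈ Q, ℓ.Prime ∧ z < ℓ)
    (hR : 0 < R) {a b : ℕ} (hab : a ≠ b) (ha : a ≤ z ^ R) (hb : b ≤ z ^ R) :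
    (Q.filter (fun ℓ => a ≡ b [MOD ℓ])).card ≤ R := by
  rcases lt_or_gt_of_ne hab with h | h
  · exact card_filter_modEq_le_aux Q z R hQ hR h hb
  · have := card_filter_modEq_le_aux Q z R hQ hR h ha
    have he : Q.filter (fun ℓ => a ≡ b [MOD ℓ]) = Q.filter (fun ℓ => b ≡ a [MOD ℓ]) := by
      apply Finset.filter_congr
      intro ℓ _
      exact ⟨Nat.ModEq.symm, Nat.ModEq.symm⟩
    rw [he]
    exact this

/-- double counting -/
theorem sum_col_insert_le (X Q Q' : Finset ℕ) (z R : ℕ) (hQ : ∀ ℓ ∈ Q, ℓ.Prime ∧ z < ℓ)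
    (hX : ∀ x ∈ X, x ≤ z ^ R) (hR : 0 < R) (hQ' : Q' ⊆ Q) (τ : Finset ℕ) :
    ∑ ℓ ∈ Q', col X (insert ℓ τ) ≤ R * col X τ := by
  classical
  set C := (X ×ˢ X).filter (fun p => p.1 ≠ p.2 ∧ ∀ ℓ ∈ τ, p.1 ≡ p.2 [MOD ℓ]) with hC
  have h1 : ∀ ℓ, col X (insert ℓ τ) = ∑ p ∈ C, if p.1 ≡ p.2 [MOD ℓ] then 1 else 0 := by
    intro ℓ
    rw [← Finset.card_filter, hC, Finset.filter_filter]
    unfold col
    congr 1
    apply Finset.filter_congr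
    intro p _
    simp only [Finset.mem_insert, forall_eq_or_imp]
    tauto
  calc ∑ ℓ ∈ Q', col X (insert ℓ τ)
      = ∑ ℓ ∈ Q', ∑ p ∈ C, (if p.1 ≡ p.2 [MOD ℓ] then 1 else 0) :=
        Finset.sum_congr rfl (fun ℓ _ => h1 ℓ)
    _ = ∑ p ∈ C, ∑ ℓ ∈ Q', (if p.1 ≡ p.2 [MOD ℓ] then 1 else 0) := Finset.sum_comm
    _ = ∑ p ∈ C, (Q'.filter (fun ℓ => p.1 ≡ p.2 [MOD ℓ])).card := by
        apply Finset.sum_congr rfl
        intro p _
        rw [Finset.card_filter]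
    _ ≤ ∑ _p ∈ C, R := by
        apply Finset.sum_le_sum
        intro p hp
        have hp' := Finset.mem_filter.1 hp
        have hpX := Finset.mem_product.1 hp'.1
        calc (Q'.filter (fun ℓ => p.1 ≡ p.2 [MOD ℓ])).card
            ≤ (Q.filter (fun ℓ => p.1 ≡ p.2 [MOD ℓ])).card :=
              Finset.card_le_card (Finset.filter_subset_filter _ hQ')
          _ ≤ R := card_filter_modEq_le Q z R hQ hR hp'.2.1 (hX _ hpX.1) (hX _ hpX.2)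
    _ = R * col X τ := by
        rw [Finset.sum_const, smul_eq_mul, mul_comm]
        rfl

/-- normalised collision count -/
noncomputable def cc (X Y τ : Finset ℕ) : ℝ :=
  (col X τ : ℝ) / (X.card : ℝ) ^ 2 + (col Y τ : ℝ) / (Y.card : ℝ) ^ 2

theorem cc_nonneg (X Y τ : Finset ℕ) : 0 ≤ cc X Y τ := by
  unfold cc
  positivity

theorem col_le (X τ : Finset ℕ) : col X τ ≤ X.card ^ 2 := by
  unfold col
  calc _ ≤ (X ×ˢ X).card := Finset.card_filter_le _ _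
    _ = X.card ^ 2 := by rw [Finset.card_product, sq]

theorem col_div_le_one (X τ : Finset ℕ) : (col X τ : ℝ) / (X.card : ℝ) ^ 2 ≤ 1 := by
  apply div_le_one_of_le₀
  · exact_mod_cast col_le X τ
  · positivity

theorem cc_le_two (X Y τ : Finset ℕ) : cc X Y τ ≤ 2 := by
  unfold cc
  have := col_div_le_one X τ
  have := col_div_le_one Y τ
  linarith

theorem sum_cc_insert_le (X Y Q Q' : Finset ℕ) (z R : ℕ) (hQ : ∀ ℓ ∈ Q, ℓ.Prime ∧ z < ℓ)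
    (hX : ∀ x ∈ X, x ≤ z ^ R) (hY : ∀ y ∈ Y, y ≤ z ^ R) (hR : 0 < R) (hQ' : Q' ⊆ Q)
    (τ : Finset ℕ) :
    ∑ ℓ ∈ Q', cc X Y (insert ℓ τ) ≤ R * cc X Y τ := by
  unfold cc
  rw [Finset.sum_add_distrib, ← Finset.sum_div, ← Finset.sum_div, mul_add, ← mul_div_assoc,
    ← mul_div_assoc]
  have h1 : (∑ ℓ ∈ Q', (col X (insert ℓ τ) : ℝ)) ≤ R * col X τ := by
    exact_mod_cast sum_col_insert_le X Q Q' z R hQ hX hR hQ' τ
  have h2 : (∑ ℓ ∈ Q', (col Y (insert ℓ τ) : ℝ)) ≤ R * col Y τ := by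
    exact_mod_cast sum_col_insert_le Y Q Q' z R hQ hY hR hQ' τ
  gcongr

/-- the potential -/
noncomputable def Phi (X Y : Finset ℕ) (β : ℝ) (L : Finset ℕ) : ℝ :=
  ∑ τ ∈ L.powerset, cc X Y τ * β ^ τ.card

theorem Phi_nonneg (X Y : Finset ℕ) {β : ℝ} (hβ : 0 ≤ β) (L : Finset ℕ) : 0 ≤ Phi X Y β L := by
  unfold Phi
  apply Finset.sum_nonneg
  intro τ _
  exact mul_nonneg (cc_nonneg X Y τ) (pow_nonneg hβ _)

theorem Phi_insert (X Y : Finset ℕ) (β : ℝ) (L : Finset ℕ) {ℓ : ℕ} (hℓ : ℓ ∉ L) :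
    Phi X Y β (insert ℓ L) =
      Phi X Y β L + β * ∑ τ ∈ L.powerset, cc X Y (insert ℓ τ) * β ^ τ.card := by
  unfold Phi
  rw [Finset.sum_powerset_insert hℓ, Finset.mul_sum]
  congr 1
  apply Finset.sum_congr rfl
  intro τ hτ
  have : ℓ ∉ τ := fun h => hℓ (Finset.mem_powerset.1 hτ h)
  rw [Finset.card_insert_of_notMem this, pow_succ]
  ring

theorem sum_Phi_incr_le (X Y Q Q' : Finset ℕ) (z R : ℕ) (hQ : ∀ ℓ ∈ Q, ℓ.Prime ∧ z < ℓ)
    (hX : ∀ x ∈ X, x ≤ z ^ R) (hY : ∀ y ∈ Y, y ≤ z ^ R) (hR : 0 < R) (hQ' : Q' ⊆ Q)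
    {β : ℝ} (hβ : 0 ≤ β) (L : Finset ℕ) :
    ∑ ℓ ∈ Q', ∑ τ ∈ L.powerset, cc X Y (insert ℓ τ) * β ^ τ.card ≤ R * Phi X Y β L := by
  rw [Finset.sum_comm]
  unfold Phi
  rw [Finset.mul_sum]
  apply Finset.sum_le_sum
  intro τ _
  rw [← Finset.sum_mul, ← mul_assoc]
  exact mul_le_mul_of_nonneg_right (sum_cc_insert_le X Y Q Q' z R hQ hX hY hR hQ' τ)
    (pow_nonneg hβ _)

theorem exists_step (X Y Q : Finset ℕ) (z R r : ℕ) (hQ : ∀ ℓ ∈ Q, ℓ.Prime ∧ z < ℓ)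
    (hX : ∀ x ∈ X, x ≤ z ^ R) (hY : ∀ y ∈ Y, y ≤ z ^ R) (hR : 0 < R) (hr0 : 0 < r)
    (hr : 2 * r ≤ Q.card) (L : Finset ℕ) (hL : L ⊆ Q) (hLc : L.card < r) :
    ∃ ℓ ∈ Q \ L, Phi X Y ((Q.card : ℝ) / (2 * R * r)) (insert ℓ L)
      ≤ Phi X Y ((Q.card : ℝ) / (2 * R * r)) L * (1 + 1 / r) := by
  classical
  set β : ℝ := (Q.card : ℝ) / (2 * R * r) with hβdef
  have hβ : 0 ≤ β := by positivity
  have hRr : (0 : ℝ) < R := by exact_mod_cast hR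
  have hrr : (0 : ℝ) < r := by exact_mod_cast hr0
  have hQc : (0 : ℝ) < Q.card := by
    have : 0 < Q.card := by omega
    exact_mod_cast this
  set g : ℕ → ℝ := fun ℓ => ∑ τ ∈ L.powerset, cc X Y (insert ℓ τ) * β ^ τ.card with hg
  have hsum : ∑ ℓ ∈ Q \ L, g ℓ ≤ R * Phi X Y β L :=
    sum_Phi_incr_le X Y Q (Q \ L) z R hQ hX hY hR Finset.sdiff_subset hβ L
  have hcard : (Q.card : ℝ) / 2 ≤ ((Q \ L).card : ℝ) := by
    have h1 : (Q \ L).card = Q.card - L.card := Finset.card_sdiff_of_subset hL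
    have h2 : Q.card ≤ 2 * (Q \ L).card := by omega
    have h3 : (Q.card : ℝ) ≤ 2 * ((Q \ L).card : ℝ) := by exact_mod_cast h2
    linarith
  have hne : (Q \ L).Nonempty := by
    rw [← Finset.card_pos]
    have : (0 : ℝ) < ((Q \ L).card : ℝ) := by linarith
    exact_mod_cast this
  -- some `ℓ` has `g ℓ ≤ average`
  obtain ⟨ℓ, hℓ, hgl⟩ : ∃ ℓ ∈ Q \ L, g ℓ ≤ (R * Phi X Y β L) / ((Q \ L).card : ℝ) := by
    apply Finset.exists_le_of_sum_le hne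
    rw [Finset.sum_const, nsmul_eq_mul]
    have : ((Q \ L).card : ℝ) ≠ 0 := by
      have : (0 : ℝ) < ((Q \ L).card : ℝ) := by linarith
      exact this.ne'
    rw [mul_div_cancel₀ _ this]
    exact hsum
  refine ⟨ℓ, hℓ, ?_⟩
  have hℓL : ℓ ∉ L := (Finset.mem_sdiff.1 hℓ).2
  rw [Phi_insert X Y β L hℓL]
  have hP := Phi_nonneg X Y hβ L
  have h4 : (R * Phi X Y β L) / ((Q \ L).card : ℝ) ≤ (R * Phi X Y β L) / ((Q.card : ℝ) / 2) := by
    apply div_le_div_of_nonneg_left (by positivity) (by positivity) hcard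
  have h5 : β * ((R * Phi X Y β L) / ((Q.card : ℝ) / 2)) = Phi X Y β L * (1 / r) := by
    rw [hβdef]
    field_simp
  have h6 : β * g ℓ ≤ Phi X Y β L * (1 / r) := by
    rw [← h5]
    exact mul_le_mul_of_nonneg_left (hgl.trans h4) hβ
  have : β * ∑ τ ∈ L.powerset, cc X Y (insert ℓ τ) * β ^ τ.card = β * g ℓ := rfl
  rw [this]
  linarith

theorem exists_greedy (X Y Q : Finset ℕ) (z R r : ℕ) (hQ : ∀ ℓ ∈ Q, ℓ.Prime ∧ z < ℓ)
    (hX : ∀ x ∈ X, x ≤ z ^ R) (hY : ∀ y ∈ Y, y ≤ z ^ R) (hR : 0 < R) (hr0 : 0 < r)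
    (hr : 2 * r ≤ Q.card) (i : ℕ) (hi : i ≤ r) :
    ∃ L ⊆ Q, L.card = i ∧
      Phi X Y ((Q.card : ℝ) / (2 * R * r)) L ≤ 2 * (1 + 1 / (r : ℝ)) ^ i := by
  classical
  induction i with
  | zero =>
    refine ⟨∅, Finset.empty_subset _, rfl, ?_⟩
    unfold Phi
    simp only [Finset.powerset_empty, Finset.sum_singleton, Finset.card_empty, pow_zero, mul_one]
    exact cc_le_two X Y ∅
  | succ i ih =>
    obtain ⟨L, hLQ, hLc, hLP⟩ := ih (by omega)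
    obtain ⟨ℓ, hℓ, hstep⟩ := exists_step X Y Q z R r hQ hX hY hR hr0 hr L hLQ (by omega)
    have hℓ' := Finset.mem_sdiff.1 hℓ
    refine ⟨insert ℓ L, Finset.insert_subset hℓ'.1 hLQ, ?_, ?_⟩
    · rw [Finset.card_insert_of_notMem hℓ'.2, hLc]
    · refine hstep.trans ?_
      rw [pow_succ, ← mul_assoc]
      exact mul_le_mul_of_nonneg_right hLP (by positivity)

theorem one_add_inv_pow_le (r : ℕ) (hr0 : 0 < r) : (1 + 1 / (r : ℝ)) ^ r ≤ 3 := by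
  have hrr : (0 : ℝ) < r := by exact_mod_cast hr0
  have h1 : 1 + 1 / (r : ℝ) ≤ Real.exp (1 / r) := by
    have := Real.add_one_le_exp (1 / (r : ℝ))
    linarith
  have h2 : (1 + 1 / (r : ℝ)) ^ r ≤ Real.exp (1 / r) ^ r :=
    pow_le_pow_left₀ (by positivity) h1 r
  have h3 : Real.exp (1 / r) ^ r = Real.exp 1 := by
    rw [← Real.exp_nat_mul]
    congr 1
    field_simp
  have h4 := Real.exp_one_lt_d9
  rw [h3] at h2
  linarith

theorem selection (X Y Q : Finset ℕ) (z R r : ℕ) (hQ : ∀ ℓ ∈ Q, ℓ.Prime ∧ z < ℓ)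
    (hX : ∀ x ∈ X, x ≤ z ^ R) (hY : ∀ y ∈ Y, y ≤ z ^ R) (hR : 0 < R) (hr0 : 0 < r)
    (hr : 2 * r ≤ Q.card) :
    ∃ Λ ⊆ Q, Λ.card = r ∧ ∀ τ ⊆ Λ,
      (col X τ : ℝ) / (X.card : ℝ) ^ 2 + (col Y τ : ℝ) / (Y.card : ℝ) ^ 2
        ≤ 6 * (2 * R * r / Q.card : ℝ) ^ τ.card := by
  classical
  obtain ⟨Λ, hΛQ, hΛc, hΛP⟩ := exists_greedy X Y Q z R r hQ hX hY hR hr0 hr r le_rfl
  refine ⟨Λ, hΛQ, hΛc, ?_⟩
  intro τ hτ
  have hRr : (0 : ℝ) < R := by exact_mod_cast hR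
  have hrr : (0 : ℝ) < r := by exact_mod_cast hr0
  have hQc : (0 : ℝ) < Q.card := by
    have : 0 < Q.card := by omega
    exact_mod_cast this
  set β : ℝ := (Q.card : ℝ) / (2 * R * r) with hβdef
  have hβ : 0 < β := by positivity
  have h6 : Phi X Y β Λ ≤ 6 := by
    have := one_add_inv_pow_le r hr0
    linarith
  have hterm : cc X Y τ * β ^ τ.card ≤ Phi X Y β Λ := by
    unfold Phi
    exact Finset.single_le_sum (f := fun τ => cc X Y τ * β ^ τ.card)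
      (fun σ _ => mul_nonneg (cc_nonneg X Y σ) (pow_nonneg hβ.le _)) (Finset.mem_powerset.2 hτ)
  have hinv : (2 * R * r / Q.card : ℝ) = β⁻¹ := by
    rw [hβdef, inv_div]
  rw [hinv, inv_pow]
  have hpos : 0 < β ^ τ.card := pow_pos hβ _
  have : cc X Y τ ≤ 6 * (β ^ τ.card)⁻¹ := by
    rw [← div_eq_mul_inv, le_div_iff₀ hpos]
    exact hterm.trans h6
  exact this

end Vale.Agent.Lib.P012
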