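import Mathlib
import Vale.Agent.Lib.P012.Defs
import Vale.Agent.Lib.P012.Selection
import Vale.Agent.Lib.P012.MainIneq
import Vale.Agent.Lib.P012.Pool
import Vale.Agent.Lib.P012.ParamH2
import Vale.Agent.Lib.P012.Params
import Vale.Agent.Lib.P012.Cover

namespace Vale.Agent.Lib.P012

open Finset

theorem sum_le_prod_of_two_le (s : Finset ℕ) (hs : ∀ p ∈ s, 2 ≤ p) :
    ∑ p ∈ s, p ≤ ∏ p ∈ s, p ∧ (s.Nonempty → 2 ≤ ∏ p ∈ s, p) := by
  induction s using Finset.induction_on with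
  | empty => simp
  | insert a s ha ih =>
    have hs' : ∀ p ∈ s, 2 ≤ p := fun p hp => hs p (Finset.mem_insert_of_mem hp)
    have ha2 : 2 ≤ a := hs a (Finset.mem_insert_self _ _)
    obtain ⟨h1, h2⟩ := ih hs'
    rw [Finset.sum_insert ha, Finset.prod_insert ha]
    rcases s.eq_empty_or_nonempty with he | hne
    · subst he
      simp [ha2]
    · have h3 := h2 hne
      constructor
      · nlinarith
      · intro _
        nlinarith

theorem pool_two_rk (k : ℕ) :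
    (2 * 2 ^ k : ℝ) ≤ (2 : ℝ) ^ (18 * k + 48) / (2 * (18 * k + 48)) := by
  have hm : (0 : ℝ) < 2 * (18 * k + 48) := by positivity
  rw [le_div_iff₀ hm]
  have h1 : (k : ℝ) + 1 ≤ 2 ^ k := by
    have : k + 1 ≤ 2 ^ k := Nat.lt_two_pow_self
    exact_mod_cast this
  have h2 : (2 : ℝ) * (18 * k + 48) ≤ 2 ^ 7 * 2 ^ k := by nlinarith
  have hpos : (0 : ℝ) < 2 ^ k := by positivity
  calc (2 * 2 ^ k : ℝ) * (2 * (18 * k + 48)) ≤ (2 * 2 ^ k) * (2 ^ 7 * 2 ^ k) := by gcongr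
    _ = 2 ^ (2 * k + 8) := by ring
    _ ≤ 2 ^ (18 * k + 48) := pow_le_pow_right₀ (by norm_num) (by omega)

theorem step_thm (k : ℕ) (hk : 10 ≤ k) (P : Finset ℕ)
    (hP : ∀ p ∈ P, p.Prime ∧ p ≤ 2 ^ (18 * k + 48))
    (hc1 : 2 ^ k + 4 ≤ P.card) (hc2 : P.card ≤ 2 ^ (2 * k + 2)) :
    ∃ Λ : Finset ℕ, (∀ ℓ ∈ Λ, ℓ.Prime ∧ ℓ ≤ 2 ^ (18 * k + 48)) ∧ Disjoint P Λ ∧
      Λ.card = rk k ∧ Cov (∏ p ∈ P, p) (∏ ℓ ∈ Λ, ℓ) 4 := by
  obtain ⟨u, hu⟩ : ∃ u, u = 2 ^ (k - 1) := ⟨_, rfl⟩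
  have h2u : 2 * u = 2 ^ k := by
    obtain ⟨j, rfl⟩ : ∃ j, k = j + 1 := ⟨k - 1, by omega⟩
    rw [hu]
    simp only [Nat.add_sub_cancel]
    ring
  -- the three sets of primes
  obtain ⟨Us, hUsP, hUsc⟩ := Finset.exists_subset_card_eq (s := P) (n := u) (by omega)
  obtain ⟨Ws, hWsP, hWsc⟩ := Finset.exists_subset_card_eq (s := P \ Us) (n := u) (by
    rw [Finset.card_sdiff_of_subset hUsP]; omega)
  obtain ⟨Ts, hTsP, hTsc⟩ := Finset.exists_subset_card_eq (s := (P \ Us) \ Ws) (n := 4) (by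
    rw [Finset.card_sdiff_of_subset hWsP, Finset.card_sdiff_of_subset hUsP]; omega)
  have hWsP' : Ws ⊆ P := hWsP.trans Finset.sdiff_subset
  have hTsP' : Ts ⊆ P := hTsP.trans (Finset.sdiff_subset.trans Finset.sdiff_subset)
  have dUW : Disjoint Us Ws := by
    rw [Finset.disjoint_left]
    intro p hp hp'
    exact (Finset.mem_sdiff.1 (hWsP hp')).2 hp
  have dTU : Disjoint Ts Us := by
    rw [Finset.disjoint_left]
    intro p hp hp'
    exact (Finset.mem_sdiff.1 (Finset.mem_sdiff.1 (hTsP hp)).1).2 hp'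
  have dTW : Disjoint Ts Ws := by
    rw [Finset.disjoint_left]
    intro p hp hp'
    exact (Finset.mem_sdiff.1 (hTsP hp)).2 hp'
  have pU : ∀ p ∈ Us, p.Prime := fun p hp => (hP p (hUsP hp)).1
  have pW : ∀ p ∈ Ws, p.Prime := fun p hp => (hP p (hWsP' hp)).1
  have pT : ∀ p ∈ Ts, p.Prime := fun p hp => (hP p (hTsP' hp)).1
  obtain ⟨U, hU⟩ : ∃ U, U = ∏ p ∈ Us, p := ⟨_, rfl⟩
  obtain ⟨W, hW⟩ : ∃ W, W = ∏ p ∈ Ws, p := ⟨_, rfl⟩
  obtain ⟨T, hT⟩ : ∃ T, T = ∏ p ∈ Ts, p := ⟨_, rfl⟩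
  obtain ⟨N, hN⟩ : ∃ N, N = ∏ p ∈ P, p := ⟨_, rfl⟩
  have hN0 : 0 < N := by
    rw [hN]; exact Finset.prod_pos (fun p hp => (hP p hp).1.pos)
  have hU0 : 0 < U := by
    rw [hU]; exact Finset.prod_pos (fun p hp => (pU p hp).pos)
  have hW0 : 0 < W := by
    rw [hW]; exact Finset.prod_pos (fun p hp => (pW p hp).pos)
  have hTUW : T * U * W ∣ N := by
    have e : T * U * W = ∏ p ∈ (Ts ∪ Us) ∪ Ws, p := by
      rw [Finset.prod_union (Finset.disjoint_union_left.2 ⟨dTW, dUW⟩), Finset.prod_union dTU,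
        hT, hU, hW]
    rw [e, hN]
    apply Finset.prod_dvd_prod_of_subset
    exact Finset.union_subset (Finset.union_subset hTsP' hUsP) hWsP'
  -- parameters
  obtain ⟨z, hz⟩ : ∃ z, z = 2 ^ (9 * k + 24) := ⟨_, rfl⟩
  obtain ⟨Z, hZ⟩ : ∃ Z, Z = 2 ^ (18 * k + 48) := ⟨_, rfl⟩
  have hzZ : z ^ 2 = Z := by
    rw [hz, hZ, ← pow_mul]; congr 1; ring
  have hbound : ∀ s : Finset ℕ, s ⊆ P → s.card = u → ∏ p ∈ s, p ≤ z ^ (2 ^ k) := by
    intro s hs hsc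
    calc ∏ p ∈ s, p ≤ Z ^ s.card :=
          Finset.prod_le_pow_card _ _ _ (fun p hp => by rw [hZ]; exact (hP p (hs hp)).2)
      _ = z ^ (2 ^ k) := by rw [hsc, ← hzZ, ← pow_mul, h2u]
  obtain ⟨X, hX⟩ : ∃ X, X = U.divisors := ⟨_, rfl⟩
  obtain ⟨Y, hY⟩ : ∃ Y, Y = W.divisors := ⟨_, rfl⟩
  have hXc : X.card = 2 ^ u := by rw [hX, hU, card_divisors_prod Us pU, hUsc]
  have hYc : Y.card = 2 ^ u := by rw [hY, hW, card_divisors_prod Ws pW, hWsc]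
  obtain ⟨Q, hQ⟩ : ∃ Q, Q = ((Finset.Ioc (2 ^ (9 * k + 24)) (2 ^ (18 * k + 48))).filter Nat.Prime) \ P :=
    ⟨_, rfl⟩
  have hQcard := pool_card k P hc2
  rw [← hQ] at hQcard
  have hQmem : ∀ ℓ ∈ Q, ℓ.Prime ∧ z < ℓ ∧ ℓ ≤ Z ∧ ℓ ∉ P := by
    intro ℓ hℓ
    rw [hQ, Finset.mem_sdiff, Finset.mem_filter, Finset.mem_Ioc] at hℓ
    rw [hz, hZ]
    exact ⟨hℓ.1.2, hℓ.1.1.1, hℓ.1.1.2, hℓ.2⟩
  have hr2 : 2 * rk k ≤ Q.card := by
    have h1 : ((2 * rk k : ℕ) : ℝ) ≤ (Q.card : ℝ) := by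
      refine le_trans ?_ ((pool_two_rk k).trans hQcard)
      have : (rk k : ℝ) ≤ 2 ^ k := by exact_mod_cast rk_le k
      push_cast
      linarith
    exact_mod_cast h1
  obtain ⟨Λ, hΛQ, hΛc, hcol⟩ := selection X Y Q z (2 ^ k) (rk k)
    (fun ℓ hℓ => ⟨(hQmem ℓ hℓ).1, (hQmem ℓ hℓ).2.1⟩)
    (fun x hx => (Nat.divisor_le (hX ▸ hx)).trans (by rw [hU]; exact hbound Us hUsP hUsc))
    (fun y hy => (Nat.divisor_le (hY ▸ hy)).trans (by rw [hW]; exact hbound Ws hWsP' hWsc))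
    (Nat.two_pow_pos k) (rk_pos k hk) hr2
  have hΛp : ∀ ℓ ∈ Λ, ℓ.Prime := fun ℓ hℓ => (hQmem ℓ (hΛQ hℓ)).1
  have a1 : (0 : ℝ) ≤ 2 * ((2 ^ k : ℕ) : ℝ) * (rk k : ℝ) / (Q.card : ℝ) :=
    div_nonneg (mul_nonneg (mul_nonneg zero_le_two (Nat.cast_nonneg _)) (Nat.cast_nonneg _))
      (Nat.cast_nonneg _)
  have a2 : 1 ≤ Z := by rw [hZ]; exact Nat.one_le_two_pow
  have a3 : 0 < 2 ^ u := Nat.two_pow_pos u
  have a4 : 16 * 2 ^ rk k * Z ^ (3 * rk k) ≤ (2 ^ u) ^ 4 := by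
    rw [hZ, hu]; exact param_h1 k (by omega)
  have a5 : (rk k : ℝ) * (Z : ℝ) ^ 3 * (2 * ((2 ^ k : ℕ) : ℝ) * (rk k : ℝ) / (Q.card : ℝ)) ^ 4
      ≤ 1 / 65536 := by
    rw [hZ]; exact param_h2 k (rk k) _ (rk_le k) hQcard
  have hmain := main_ineq Λ X Y (2 ^ u) Z (rk k) (2 * ((2 ^ k : ℕ) : ℝ) * (rk k : ℝ) / (Q.card : ℝ))
    a1 a2 hXc hYc a3 hΛc (fun ℓ hℓ => (hQmem ℓ (hΛQ hℓ)).2.2.1) hcol a4 a5
  -- the tags
  let t : Fin 4 → ℕ := fun i => Ts.orderEmbOfFin hTsc i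
  have htmem : ∀ i, t i ∈ Ts := fun i => Finset.orderEmbOfFin_mem Ts hTsc i
  have htinj : Function.Injective t := (Ts.orderEmbOfFin hTsc).injective
  have htsum : ∑ i, t i = ∑ p ∈ Ts, p := by
    conv_rhs => rw [← Finset.map_orderEmbOfFin_univ Ts hTsc]
    rw [Finset.sum_map]
    rfl
  have htT : ∑ i, t i ≤ T := by
    rw [htsum, hT]
    exact (sum_le_prod_of_two_le Ts (fun p hp => (pT p hp).two_le)).1
  have htdvd : ∀ i, t i ∣ T := fun i => by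
    rw [hT]; exact Finset.dvd_prod_of_mem (fun p => p) (htmem i)
  have ht : ∀ i, ∀ ℓ ∈ Λ, ¬ ℓ ∣ t i := by
    intro i ℓ hℓ hd
    have h1 := (Nat.prime_dvd_prime_iff_eq (hΛp ℓ hℓ) (pT _ (htmem i))).1 hd
    exact (hQmem ℓ (hΛQ hℓ)).2.2.2 (h1 ▸ hTsP' (htmem i))
  have htU : ∀ i, Nat.Coprime (t i) U := by
    intro i
    rw [hU]
    apply Nat.Coprime.prod_right
    intro p hp
    rw [Nat.coprime_primes (pT _ (htmem i)) (pU p hp)]
    intro h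
    exact (Finset.disjoint_left.1 dTU (htmem i)) (h ▸ hp)
  have htW : ∀ i, Nat.Coprime (t i) W := by
    intro i
    rw [hW]
    apply Nat.Coprime.prod_right
    intro p hp
    rw [Nat.coprime_primes (pT _ (htmem i)) (pW p hp)]
    intro h
    exact (Finset.disjoint_left.1 dTW (htmem i)) (h ▸ hp)
  refine ⟨Λ, fun ℓ hℓ => ⟨hΛp ℓ hℓ, by rw [← hZ]; exact (hQmem ℓ (hΛQ hℓ)).2.2.1⟩, ?_, hΛc, ?_⟩
  · rw [Finset.disjoint_right]
    intro ℓ hℓ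
    exact (hQmem ℓ (hΛQ hℓ)).2.2.2
  · rw [← hN]
    intro c
    obtain ⟨x, y, hx, hy, hxy⟩ := cover_of_col Λ X Y hΛp t ht hmain c
    have hxd : ∀ i, x i ∣ U := fun i => Nat.dvd_of_mem_divisors (hX ▸ hx i)
    have hyd : ∀ i, y i ∣ W := fun i => Nat.dvd_of_mem_divisors (hY ▸ hy i)
    have hdinj : Function.Injective (fun i => t i * x i * y i) := by
      intro i j hij
      simp only at hij
      have h1 : t i ∣ t j * x j * y j := by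
        rw [← hij, mul_assoc]; exact dvd_mul_right _ _
      have c1 : Nat.Coprime (t i) (y j) := Nat.Coprime.coprime_dvd_right (hyd j) (htW i)
      have c2 : Nat.Coprime (t i) (x j) := Nat.Coprime.coprime_dvd_right (hxd j) (htU i)
      have h2 : t i ∣ t j := c2.dvd_of_dvd_mul_right (c1.dvd_of_dvd_mul_right h1)
      exact htinj ((Nat.prime_dvd_prime_iff_eq (pT _ (htmem i)) (pT _ (htmem j))).1 h2)
    have hsum : ∑ d ∈ univ.image (fun i => t i * x i * y i), d = ∑ i, t i * x i * y i :=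
      Finset.sum_image (fun a _ b _ hab => hdinj hab)
    refine ⟨univ.image (fun i => t i * x i * y i), ?_, ?_, ?_, ?_⟩
    · intro d hd
      obtain ⟨i, -, rfl⟩ := Finset.mem_image.1 hd
      rw [Nat.mem_divisors]
      exact ⟨(mul_dvd_mul (mul_dvd_mul (htdvd i) (hxd i)) (hyd i)).trans hTUW, hN0.ne'⟩
    · exact Finset.card_image_le.trans (by simp)
    · rw [hsum]
      calc ∑ i, t i * x i * y i ≤ ∑ i, t i * U * W := by
            apply Finset.sum_le_sum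
            intro i _
            exact Nat.mul_le_mul (Nat.mul_le_mul_left _ (Nat.le_of_dvd hU0 (hxd i)))
              (Nat.le_of_dvd hW0 (hyd i))
        _ = (∑ i, t i) * U * W := by
            rw [Finset.sum_mul, Finset.sum_mul]
        _ ≤ T * U * W := by gcongr
        _ ≤ N := Nat.le_of_dvd hN0 hTUW
    · rw [hsum]
      exact hxy

end Vale.Agent.Lib.P012
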