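import Mathlib
import Vale.Agent.Lib.P012.Defs
import Vale.Agent.Lib.P012.Defs2
import Vale.Agent.Lib.P012.Choose
import Vale.Agent.Lib.P012.Params
import Vale.Agent.Lib.P012.Cover
import Vale.Agent.Lib.P012.StepThm

namespace Vale.Agent.Lib.P012

open Finset

theorem param_h1' (k e r V : ℕ) (hr : 4 + r * (54 * k + 145) ≤ 4 * e) (hV : 2 ^ e ≤ V) :
    16 * 2 ^ r * (2 ^ (18 * k + 48)) ^ (3 * r) ≤ V ^ 4 := by
  have e1 : 16 * 2 ^ r * (2 ^ (18 * k + 48)) ^ (3 * r) = 2 ^ (4 + r * (54 * k + 145)) := by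
    rw [← pow_mul, show (16 : ℕ) = 2 ^ 4 by norm_num, ← pow_add, ← pow_add]
    congr 1
    ring
  rw [e1]
  calc 2 ^ (4 + r * (54 * k + 145)) ≤ 2 ^ (4 * e) := Nat.pow_le_pow_right (by norm_num) hr
    _ = (2 ^ e) ^ 4 := by rw [← pow_mul, mul_comm]
    _ ≤ V ^ 4 := Nat.pow_le_pow_left hV 4

theorem step_thm2 (k : ℕ) (hk : 10 ≤ k) (A e r : ℕ) (P Us Ws Ts : Finset ℕ)
    (hP : ∀ p ∈ P, p.Prime ∧ p ≤ 2 ^ (18 * k + 48)) (hc2 : P.card ≤ 2 ^ (2 * k + 2))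
    (hUsP : Us ⊆ P) (hWsP' : Ws ⊆ P) (hTsP' : Ts ⊆ P)
    (dUW : Disjoint Us Ws) (dTU : Disjoint Ts Us) (dTW : Disjoint Ts Ws)
    (hUsc : Us.card = 2 ^ (k - 1)) (hWsc : Ws.card = 2 ^ (k - 1)) (hTsc : Ts.card = 4)
    (hA : 2 * A ≤ 2 ^ k) (he : 2 ^ e ≤ (2 ^ (k - 1)).choose A)
    (hr : 4 + r * (54 * k + 145) ≤ 4 * e) (hr0 : 0 < r) :
    ∃ Λ : Finset ℕ, (∀ ℓ ∈ Λ, ℓ.Prime ∧ 2 ^ (9 * k + 24) < ℓ ∧ ℓ ≤ 2 ^ (18 * k + 48)) ∧
      Disjoint P Λ ∧ Λ.card = r ∧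
      CovUpTo (∏ p ∈ P, p) (∏ ℓ ∈ Λ, ℓ) 4 ((2 ^ (18 * k + 48)) ^ (2 * A + 4)) := by
  have h2u : 2 * 2 ^ (k - 1) = 2 ^ k := by
    obtain ⟨j, rfl⟩ : ∃ j, k = j + 1 := ⟨k - 1, by omega⟩
    simp only [Nat.add_sub_cancel]
    ring
  have pU : ∀ p ∈ Us, p.Prime := fun p hp => (hP p (hUsP hp)).1
  have pW : ∀ p ∈ Ws, p.Prime := fun p hp => (hP p (hWsP' hp)).1
  have pT : ∀ p ∈ Ts, p.Prime := fun p hp => (hP p (hTsP' hp)).1
  obtain ⟨U, hU⟩ : ∃ U, U = ∏ p ∈ Us, p := ⟨_, rfl⟩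
  obtain ⟨W, hW⟩ : ∃ W, W = ∏ p ∈ Ws, p := ⟨_, rfl⟩
  obtain ⟨T, hT⟩ : ∃ T, T = ∏ p ∈ Ts, p := ⟨_, rfl⟩
  obtain ⟨N, hN⟩ : ∃ N, N = ∏ p ∈ P, p := ⟨_, rfl⟩
  have hN0 : 0 < N := by
    rw [hN]; exact Finset.prod_pos (fun p hp => (hP p hp).1.pos)
  have hTUW : T * U * W ∣ N := by
    have e : T * U * W = ∏ p ∈ (Ts ∪ Us) ∪ Ws, p := by
      rw [Finset.prod_union (Finset.disjoint_union_left.2 ⟨dTW, dUW⟩), Finset.prod_union dTU,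
        hT, hU, hW]
    rw [e, hN]
    apply Finset.prod_dvd_prod_of_subset
    exact Finset.union_subset (Finset.union_subset hTsP' hUsP) hWsP'
  -- parameters
  obtain ⟨z, hz⟩ : ∃ z, z = 2 ^ (9 * k + 24) := ⟨_, rfl⟩
  obtain ⟨Z, hZ⟩ : ∃ Z, Z = 2 ^ (18 * k + 48) := ⟨_, rfl⟩
  have hz1 : 1 ≤ z := by rw [hz]; exact Nat.one_le_two_pow
  have hzZ : z ^ 2 = Z := by
    rw [hz, hZ, ← pow_mul]; congr 1; ring
  have hZA : Z ^ A ≤ z ^ (2 ^ k) := by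
    rw [← hzZ, ← pow_mul]
    exact Nat.pow_le_pow_right hz1 hA
  obtain ⟨V, hV⟩ : ∃ V, V = (2 ^ (k - 1)).choose A := ⟨_, rfl⟩
  rw [← hV] at he
  obtain ⟨X, hX⟩ : ∃ X, X = prodFam Us A := ⟨_, rfl⟩
  obtain ⟨Y, hY⟩ : ∃ Y, Y = prodFam Ws A := ⟨_, rfl⟩
  have hXc : X.card = V := by rw [hX, card_prodFam Us pU, hUsc, hV]
  have hYc : Y.card = V := by rw [hY, card_prodFam Ws pW, hWsc, hV]
  have hXle : ∀ x ∈ X, x ≤ Z ^ A := fun x hx =>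
    prodFam_le (fun p hp => by rw [hZ]; exact (hP p (hUsP hp)).2) (hX ▸ hx)
  have hYle : ∀ y ∈ Y, y ≤ Z ^ A := fun y hy =>
    prodFam_le (fun p hp => by rw [hZ]; exact (hP p (hWsP' hp)).2) (hY ▸ hy)
  have he2 : e ≤ 2 ^ (k - 1) := by
    have h1 : 2 ^ e ≤ 2 ^ (2 ^ (k - 1)) := he.trans (by rw [hV]; exact Nat.choose_le_two_pow _ _)
    exact (Nat.pow_le_pow_iff_right (by norm_num)).1 h1
  have hrk : r ≤ 2 ^ k := by
    have h1 : r * 2 ≤ r * (54 * k + 145) := Nat.mul_le_mul_left _ (by omega)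
    omega
  obtain ⟨Q, hQ⟩ : ∃ Q, Q = ((Finset.Ioc (2 ^ (9 * k + 24)) (2 ^ (18 * k + 48))).filter Nat.Prime) \ P :=
    ⟨_, rfl⟩
  have hQcard := pool_card k P hc2
  rw [← hQ] at hQcard
  have hQmem : ∀ ℓ ∈ Q, ℓ.Prime ∧ z < ℓ ∧ ℓ ≤ Z ∧ ℓ ∉ P := by
    intro ℓ hℓ
    rw [hQ, Finset.mem_sdiff, Finset.mem_filter, Finset.mem_Ioc] at hℓ
    rw [hz, hZ]
    exact ⟨hℓ.1.2, hℓ.1.1.1, hℓ.1.1.2, hℓ.2⟩
  have hr2 : 2 * r ≤ Q.card := by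
    have h1 : ((2 * r : ℕ) : ℝ) ≤ (Q.card : ℝ) := by
      refine le_trans ?_ ((pool_two_rk k).trans hQcard)
      have : (r : ℝ) ≤ 2 ^ k := by exact_mod_cast hrk
      push_cast
      linarith
    exact_mod_cast h1
  obtain ⟨Λ, hΛQ, hΛc, hcol⟩ := selection X Y Q z (2 ^ k) r
    (fun ℓ hℓ => ⟨(hQmem ℓ hℓ).1, (hQmem ℓ hℓ).2.1⟩)
    (fun x hx => (hXle x hx).trans hZA) (fun y hy => (hYle y hy).trans hZA)
    (Nat.two_pow_pos k) hr0 hr2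
  have hΛp : ∀ ℓ ∈ Λ, ℓ.Prime := fun ℓ hℓ => (hQmem ℓ (hΛQ hℓ)).1
  have a1 : (0 : ℝ) ≤ 2 * ((2 ^ k : ℕ) : ℝ) * (r : ℝ) / (Q.card : ℝ) :=
    div_nonneg (mul_nonneg (mul_nonneg zero_le_two (Nat.cast_nonneg _)) (Nat.cast_nonneg _))
      (Nat.cast_nonneg _)
  have a2 : 1 ≤ Z := by rw [hZ]; exact Nat.one_le_two_pow
  have a3 : 0 < V := lt_of_lt_of_le (Nat.two_pow_pos e) he
  have a4 : 16 * 2 ^ r * Z ^ (3 * r) ≤ V ^ 4 := by
    rw [hZ]; exact param_h1' k e r V hr he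
  have a5 : (r : ℝ) * (Z : ℝ) ^ 3 * (2 * ((2 ^ k : ℕ) : ℝ) * (r : ℝ) / (Q.card : ℝ)) ^ 4
      ≤ 1 / 65536 := by
    rw [hZ]; exact param_h2 k r _ hrk hQcard
  have hmain := main_ineq Λ X Y V Z r (2 * ((2 ^ k : ℕ) : ℝ) * (r : ℝ) / (Q.card : ℝ))
    a1 a2 hXc hYc a3 hΛc (fun ℓ hℓ => (hQmem ℓ (hΛQ hℓ)).2.2.1) hcol a4 a5
  -- the tags
  let t : Fin 4 → ℕ := fun i => Ts.orderEmbOfFin hTsc i
  have htmem : ∀ i, t i ∈ Ts := fun i => Finset.orderEmbOfFin_mem Ts hTsc i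
  have htinj : Function.Injective t := (Ts.orderEmbOfFin hTsc).injective
  have htsum : ∑ i, t i = ∑ p ∈ Ts, p := by
    conv_rhs => rw [← Finset.map_orderEmbOfFin_univ Ts hTsc]
    rw [Finset.sum_map]
    rfl
  have htT : ∑ i, t i ≤ T := by
    rw [htsum, hT]
    exact (sum_le_prod_of_two_le Ts (fun p hp => (pT p hp).two_le)).1
  have hTZ : T ≤ Z ^ 4 := by
    rw [hT, ← hTsc]
    exact Finset.prod_le_pow_card _ _ _ (fun p hp => by rw [hZ]; exact (hP p (hTsP' hp)).2)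
  have htdvd : ∀ i, t i ∣ T := fun i => by
    rw [hT]; exact Finset.dvd_prod_of_mem (fun p => p) (htmem i)
  have ht : ∀ i, ∀ ℓ ∈ Λ, ¬ ℓ ∣ t i := by
    intro i ℓ hℓ hd
    have h1 := (Nat.prime_dvd_prime_iff_eq (hΛp ℓ hℓ) (pT _ (htmem i))).1 hd
    exact (hQmem ℓ (hΛQ hℓ)).2.2.2 (h1 ▸ hTsP' (htmem i))
  have htU : ∀ i, Nat.Coprime (t i) U := by
    intro i
    rw [hU]
    apply Nat.Coprime.prod_right
    intro p hp
    rw [Nat.coprime_primes (pT _ (htmem i)) (pU p hp)]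
    intro h
    exact (Finset.disjoint_left.1 dTU (htmem i)) (h ▸ hp)
  have htW : ∀ i, Nat.Coprime (t i) W := by
    intro i
    rw [hW]
    apply Nat.Coprime.prod_right
    intro p hp
    rw [Nat.coprime_primes (pT _ (htmem i)) (pW p hp)]
    intro h
    exact (Finset.disjoint_left.1 dTW (htmem i)) (h ▸ hp)
  refine ⟨Λ, fun ℓ hℓ => ⟨hΛp ℓ hℓ, by rw [← hz]; exact (hQmem ℓ (hΛQ hℓ)).2.1,
    by rw [← hZ]; exact (hQmem ℓ (hΛQ hℓ)).2.2.1⟩, ?_, hΛc, ?_⟩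
  · rw [Finset.disjoint_right]
    intro ℓ hℓ
    exact (hQmem ℓ (hΛQ hℓ)).2.2.2
  · rw [← hN, ← hZ]
    intro c
    obtain ⟨x, y, hx, hy, hxy⟩ := cover_of_col Λ X Y hΛp t ht hmain c
    have hxd : ∀ i, x i ∣ U := fun i => by rw [hU]; exact prodFam_dvd (hX ▸ hx i)
    have hyd : ∀ i, y i ∣ W := fun i => by rw [hW]; exact prodFam_dvd (hY ▸ hy i)
    have hdinj : Function.Injective (fun i => t i * x i * y i) := by
      intro i j hij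
      simp only at hij
      have h1 : t i ∣ t j * x j * y j := by
        rw [← hij, mul_assoc]; exact dvd_mul_right _ _
      have c1 : Nat.Coprime (t i) (y j) := Nat.Coprime.coprime_dvd_right (hyd j) (htW i)
      have c2 : Nat.Coprime (t i) (x j) := Nat.Coprime.coprime_dvd_right (hxd j) (htU i)
      have h2 : t i ∣ t j := c2.dvd_of_dvd_mul_right (c1.dvd_of_dvd_mul_right h1)
      exact htinj ((Nat.prime_dvd_prime_iff_eq (pT _ (htmem i)) (pT _ (htmem j))).1 h2)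
    have hsum : ∑ d ∈ univ.image (fun i => t i * x i * y i), d = ∑ i, t i * x i * y i :=
      Finset.sum_image (fun a _ b _ hab => hdinj hab)
    refine ⟨univ.image (fun i => t i * x i * y i), ?_, ?_, ?_, ?_⟩
    · intro d hd
      obtain ⟨i, -, rfl⟩ := Finset.mem_image.1 hd
      rw [Nat.mem_divisors]
      exact ⟨(mul_dvd_mul (mul_dvd_mul (htdvd i) (hxd i)) (hyd i)).trans hTUW, hN0.ne'⟩
    · exact Finset.card_image_le.trans (by simp)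
    · rw [hsum]
      calc ∑ i, t i * x i * y i ≤ ∑ i, t i * Z ^ A * Z ^ A := by
            apply Finset.sum_le_sum
            intro i _
            exact Nat.mul_le_mul (Nat.mul_le_mul_left _ (hXle _ (hx i))) (hYle _ (hy i))
        _ = (∑ i, t i) * Z ^ A * Z ^ A := by
            rw [Finset.sum_mul, Finset.sum_mul]
        _ ≤ Z ^ 4 * Z ^ A * Z ^ A := by
            exact Nat.mul_le_mul_right _ (Nat.mul_le_mul_right _ (htT.trans hTZ))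
        _ = Z ^ (2 * A + 4) := by ring
    · rw [hsum]
      exact hxy

end Vale.Agent.Lib.P012
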