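import Mathlib
import Vale.Agent.Lib.P012.Defs
import Vale.Agent.Lib.P012.Defs2

namespace Vale.Agent.Lib.P012

open Finset

theorem Rep.upTo {N f : ℕ} (h : Rep N f) : RepUpTo N N f := h

theorem RepUpTo.mono {N M M' f f' : ℕ} (h : RepUpTo N M f) (hM : M' ≤ M) (hf : f ≤ f') :
    RepUpTo N M' f' := by
  intro m hm
  obtain ⟨D, hD, hc, hs⟩ := h m (hm.trans hM)
  exact ⟨D, hD, hc.trans hf, hs⟩

theorem RepUpTo.mono_dvd {N N' M f : ℕ} (h : RepUpTo N M f) (hd : N ∣ N') (hN' : N' ≠ 0) :
    RepUpTo N' M f := by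
  intro m hm
  obtain ⟨D, hD, hc, hs⟩ := h m hm
  exact ⟨D, hD.trans (Nat.divisors_subset_of_dvd hN' hd), hc, hs⟩

/-- the multiplicative step, with a size restriction -/
theorem RepUpTo.step {N M q f s : ℕ} (hq : 1 < q) (hco : Nat.Coprime N q) (h : RepUpTo N M f)
    (hc : CovUpTo N q s M) : RepUpTo (N * q) (M * q) (f + s) := by
  intro m hm
  have hN : 0 < N := by
    rcases Nat.eq_zero_or_pos N with h0 | h0
    · subst h0
      simp at hco
      omega
    · exact h0
  have hNq : N * q ≠ 0 := by positivity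
  by_cases hmN : m ≤ M
  · obtain ⟨D, hD, hcard, hsum⟩ := h m hmN
    exact ⟨D, hD.trans (Nat.divisors_subset_of_dvd hNq (dvd_mul_right N q)), by omega, hsum⟩
  · have hmN' : M < m := by omega
    obtain ⟨D, hD, hcard, hle, hmod⟩ := hc m
    have hle' : ∑ d ∈ D, d ≤ m := by omega
    have hdvd : q ∣ m - ∑ d ∈ D, d := (Nat.modEq_iff_dvd' hle').1 hmod
    obtain ⟨m', hm'⟩ := hdvd
    have hm'N : m' ≤ M := by
      have h1 : q * m' ≤ q * M := by
        rw [← hm', mul_comm q M]
        omega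
      exact Nat.le_of_mul_le_mul_left h1 (by omega)
    obtain ⟨E, hE, hEcard, hEsum⟩ := h m' hm'N
    have hinj : Function.Injective (fun e : ℕ => q * e) := by
      intro a b hab
      exact Nat.eq_of_mul_eq_mul_left (by omega) hab
    have hdisj : Disjoint D (E.image (fun e => q * e)) := by
      rw [Finset.disjoint_left]
      intro d hd hd'
      obtain ⟨e, -, rfl⟩ := Finset.mem_image.1 hd'
      have h1 : q * e ∣ N := Nat.dvd_of_mem_divisors (hD hd)
      have h2 : q ∣ N := (dvd_mul_right q e).trans h1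
      have h3 : q ∣ Nat.gcd N q := Nat.dvd_gcd h2 dvd_rfl
      rw [hco] at h3
      have := Nat.le_of_dvd one_pos h3
      omega
    refine ⟨D ∪ E.image (fun e => q * e), ?_, ?_, ?_⟩
    · intro d hd
      rcases Finset.mem_union.1 hd with hd | hd
      · exact Nat.divisors_subset_of_dvd hNq (dvd_mul_right N q) (hD hd)
      · obtain ⟨e, he, rfl⟩ := Finset.mem_image.1 hd
        rw [Nat.mem_divisors]
        refine ⟨?_, hNq⟩
        rw [mul_comm N q]
        exact mul_dvd_mul_left q (Nat.dvd_of_mem_divisors (hE he))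
    · rw [Finset.card_union_of_disjoint hdisj, Finset.card_image_of_injective _ hinj]
      omega
    · rw [Finset.sum_union hdisj, Finset.sum_image (fun a _ b _ hab => hinj hab),
        ← Finset.mul_sum, hEsum, ← hm']
      omega

/-- A small fraction `p / c` (`c ≤ M`, `p / c ≤ M / N`) is a short sum of unit fractions, all of
whose denominators are at least `c / p`. -/
theorem egypt_tail {N M f p c : ℕ} (h : RepUpTo N M f) (hN0 : 0 < N) (hc0 : 0 < c)
    (hcM : c ≤ M) (hpN : p * N ≤ M * c) :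
    ∃ S : Finset ℕ, (∀ n ∈ S, c ≤ n * p) ∧ ∑ n ∈ S, (1 / (n : ℚ)) = (p : ℚ) / c ∧
      S.card ≤ 2 * f := by
  set Q := p * N / c with hQ
  set r := p * N % c with hr
  have hdiv : c * Q + r = p * N := Nat.div_add_mod (p * N) c
  have hrb : r < c := Nat.mod_lt _ hc0
  have hQM : Q ≤ M := by
    rw [hQ]
    exact Nat.div_le_of_le_mul (by rw [mul_comm c M]; exact hpN)
  obtain ⟨D1, hD1, hc1, hs1⟩ := h Q hQM
  obtain ⟨D2, hD2, hc2, hs2⟩ := h r (by omega)
  have hd1 : ∀ d ∈ D1, d ∣ N ∧ 0 < d ∧ d ≤ Q := by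
    intro d hd
    have h1 := Nat.dvd_of_mem_divisors (hD1 hd)
    have h2 : d ≤ ∑ x ∈ D1, x := Finset.single_le_sum (f := fun x => x) (fun _ _ => Nat.zero_le _) hd
    exact ⟨h1, Nat.pos_of_dvd_of_pos h1 hN0, by omega⟩
  have hd2 : ∀ d ∈ D2, d ∣ N ∧ 0 < d ∧ d < c := by
    intro d hd
    have h1 := Nat.dvd_of_mem_divisors (hD2 hd)
    have h2 : d ≤ ∑ x ∈ D2, x := Finset.single_le_sum (f := fun x => x) (fun _ _ => Nat.zero_le _) hd
    exact ⟨h1, Nat.pos_of_dvd_of_pos h1 hN0, by omega⟩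
  have key : ∀ d, d ∣ N → d * (N / d) = N := fun d hd => Nat.mul_div_cancel' hd
  have inj1 : Set.InjOn (fun d => N / d) (D1 : Set ℕ) := by
    intro x hx y hy hxy
    have hx' := hd1 x hx
    have hy' := hd1 y hy
    have e1 := key x hx'.1
    have e2 := key y hy'.1
    simp only at hxy
    rw [hxy] at e1
    have hpos : 0 < N / y := Nat.div_pos (Nat.le_of_dvd hN0 hy'.1) hy'.2.1
    exact Nat.eq_of_mul_eq_mul_right hpos (e1.trans e2.symm)
  have inj2 : Set.InjOn (fun d => c * (N / d)) (D2 : Set ℕ) := by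
    intro x hx y hy hxy
    have hx' := hd2 x hx
    have hy' := hd2 y hy
    have e1 := key x hx'.1
    have e2 := key y hy'.1
    simp only at hxy
    have hxy' : N / x = N / y := Nat.eq_of_mul_eq_mul_left hc0 hxy
    rw [hxy'] at e1
    have hpos : 0 < N / y := Nat.div_pos (Nat.le_of_dvd hN0 hy'.1) hy'.2.1
    exact Nat.eq_of_mul_eq_mul_right hpos (e1.trans e2.symm)
  have big2 : ∀ d ∈ D2, N < c * (N / d) := by
    intro d hd
    obtain ⟨h1, h2, h3⟩ := hd2 d hd
    have e := key d h1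
    have hpos : 0 < N / d := Nat.div_pos (Nat.le_of_dvd hN0 h1) h2
    calc N = d * (N / d) := e.symm
      _ < c * (N / d) := Nat.mul_lt_mul_of_pos_right h3 hpos
  have hdisj : Disjoint (D1.image (fun d => N / d)) (D2.image (fun d => c * (N / d))) := by
    rw [Finset.disjoint_left]
    intro n hn hn'
    obtain ⟨d, hd, rfl⟩ := Finset.mem_image.1 hn
    obtain ⟨e, he, hee⟩ := Finset.mem_image.1 hn'
    have : N / d ≤ N := Nat.div_le_self _ _
    have := big2 e he
    omega
  refine ⟨D1.image (fun d => N / d) ∪ D2.image (fun d => c * (N / d)), ?_, ?_, ?_⟩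
  · intro n hn
    rcases Finset.mem_union.1 hn with hn | hn
    · obtain ⟨d, hd, rfl⟩ := Finset.mem_image.1 hn
      obtain ⟨h1, h2, h3⟩ := hd1 d hd
      have e := key d h1
      -- d * c ≤ Q * c ≤ p * N = p * d * (N / d)
      have h4 : d * c ≤ d * (N / d * p) := by
        calc d * c ≤ Q * c := Nat.mul_le_mul_right _ h3
          _ ≤ p * N := by rw [mul_comm Q c]; omega
          _ = d * (N / d * p) := by rw [← mul_assoc, e, mul_comm]
      exact Nat.le_of_mul_le_mul_left h4 h2
    · obtain ⟨d, hd, rfl⟩ := Finset.mem_image.1 hn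
      obtain ⟨h1, h2, h3⟩ := hd2 d hd
      have hpos : 0 < N / d := Nat.div_pos (Nat.le_of_dvd hN0 h1) h2
      have hp : 0 < p := by
        rcases Nat.eq_zero_or_pos p with h0 | h0
        · exfalso
          have hr0 : r = 0 := by rw [hr, h0]; simp
          have h5 : d ≤ ∑ x ∈ D2, x :=
            Finset.single_le_sum (f := fun x => x) (fun _ _ => Nat.zero_le _) hd
          omega
        · exact h0
      calc c = c * 1 := (mul_one c).symm
        _ ≤ c * (N / d * p) := Nat.mul_le_mul_left _ (Nat.mul_pos hpos hp)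
        _ = c * (N / d) * p := by ring
  · rw [Finset.sum_union hdisj, Finset.sum_image inj1, Finset.sum_image inj2]
    have hNq : (N : ℚ) ≠ 0 := by exact_mod_cast hN0.ne'
    have hbq : (c : ℚ) ≠ 0 := by exact_mod_cast hc0.ne'
    have s1 : ∑ d ∈ D1, (1 / ((N / d : ℕ) : ℚ)) = (Q : ℚ) / N := by
      rw [← hs1, Nat.cast_sum, Finset.sum_div]
      apply Finset.sum_congr rfl
      intro d hd
      obtain ⟨h1, h2, h3⟩ := hd1 d hd
      have hdq : (d : ℚ) ≠ 0 := by exact_mod_cast h2.ne'
      rw [Nat.cast_div h1 hdq]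
      field_simp
    have s2 : ∑ d ∈ D2, (1 / ((c * (N / d) : ℕ) : ℚ)) = (r : ℚ) / (c * N) := by
      rw [← hs2, Nat.cast_sum, Finset.sum_div]
      apply Finset.sum_congr rfl
      intro d hd
      obtain ⟨h1, h2, h3⟩ := hd2 d hd
      have hdq : (d : ℚ) ≠ 0 := by exact_mod_cast h2.ne'
      rw [Nat.cast_mul, Nat.cast_div h1 hdq]
      field_simp
    rw [s1, s2]
    have hq : (c : ℚ) * Q + r = p * N := by exact_mod_cast hdiv
    field_simp
    linarith
  · calc _ ≤ (D1.image (fun d => N / d)).card + (D2.image (fun d => c * (N / d))).card :=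
          Finset.card_union_le _ _
      _ ≤ D1.card + D2.card := Nat.add_le_add Finset.card_image_le Finset.card_image_le
      _ ≤ 2 * f := by omega

end Vale.Agent.Lib.P012
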