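import Mathlib
import Vale.Agent.Lib.P012.Defs
import Vale.Agent.Lib.P012.Defs2
import Vale.Agent.Lib.P012.Upto
import Vale.Agent.Lib.P012.Params
import Vale.Agent.Lib.P012.StepThm2

namespace Vale.Agent.Lib.P012

open Finset

/-- the fixed `universe` of primes used to build the bilinear families -/
def Uni (k : ℕ) (Us Ws Ts : Finset ℕ) : Prop :=
  (∀ p ∈ Us ∪ Ws ∪ Ts, p.Prime ∧ p ≤ 2 ^ (18 * k + 48)) ∧
  Disjoint Us Ws ∧ Disjoint Ts Us ∧ Disjoint Ts Ws ∧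
  Us.card = 2 ^ (k - 1) ∧ Ws.card = 2 ^ (k - 1) ∧ Ts.card = 4

/-- the state of the chain -/
def St (k : ℕ) (G PM : Finset ℕ) (c₀ μ f : ℕ) : Prop :=
  (∀ p ∈ PM, p.Prime ∧ p ≤ 2 ^ (18 * k + 48)) ∧ Disjoint PM G ∧ PM.card ≤ c₀ + μ ∧
  (2 ^ (9 * k + 24)) ^ μ ≤ ∏ p ∈ PM, p ∧ RepUpTo (∏ p ∈ PM ∪ G, p) (∏ p ∈ PM, p) f

theorem CovUpTo.mono {N q s B B' : ℕ} (h : CovUpTo N q s B) (hB : B ≤ B') :
    CovUpTo N q s B' := by
  intro c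
  obtain ⟨D, h1, h2, h3, h4⟩ := h c
  exact ⟨D, h1, h2, h3.trans hB, h4⟩

theorem chain_step (k : ℕ) (hk : 10 ≤ k) (Us Ws Ts : Finset ℕ) (hU : Uni k Us Ws Ts)
    (A e r : ℕ) (hA : 2 * A ≤ 2 ^ k) (he : 2 ^ e ≤ (2 ^ (k - 1)).choose A)
    (hr : 4 + r * (54 * k + 145) ≤ 4 * e) (hr0 : 0 < r)
    (PM : Finset ℕ) (c₀ μ f : ℕ) (hSt : St k (Us ∪ Ws ∪ Ts) PM c₀ μ f) (hμ : 4 * A + 8 ≤ μ)
    (hcard : c₀ + μ + 2 ^ k + 4 ≤ 2 ^ (2 * k + 2)) :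
    ∃ PM', St k (Us ∪ Ws ∪ Ts) PM' c₀ (μ + r) (f + 4) := by
  obtain ⟨hG, dUW, dTU, dTW, cU, cW, cT⟩ := hU
  obtain ⟨hPM, hdisj, hPMc, hz, hrep⟩ := hSt
  obtain ⟨G, hGdef⟩ : ∃ G, G = Us ∪ Ws ∪ Ts := ⟨_, rfl⟩
  rw [← hGdef] at hG hdisj hrep ⊢
  have h2u : 2 * 2 ^ (k - 1) = 2 ^ k := by
    obtain ⟨j, rfl⟩ : ∃ j, k = j + 1 := ⟨k - 1, by omega⟩
    simp only [Nat.add_sub_cancel]
    ring
  have hGc : G.card ≤ 2 ^ k + 4 := by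
    rw [hGdef]
    calc (Us ∪ Ws ∪ Ts).card ≤ (Us ∪ Ws).card + Ts.card := Finset.card_union_le _ _
      _ ≤ Us.card + Ws.card + Ts.card := Nat.add_le_add_right (Finset.card_union_le _ _) _
      _ = 2 ^ k + 4 := by rw [cU, cW, cT]; omega
  have hP : ∀ p ∈ PM ∪ G, p.Prime ∧ p ≤ 2 ^ (18 * k + 48) := by
    intro p hp
    rcases Finset.mem_union.1 hp with hp | hp
    · exact hPM p hp
    · exact hG p hp
  have hPc : (PM ∪ G).card ≤ 2 ^ (2 * k + 2) := by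
    have := Finset.card_union_le PM G
    omega
  have sU : Us ⊆ PM ∪ G := by
    intro p hp
    rw [hGdef]
    simp [hp]
  have sW : Ws ⊆ PM ∪ G := by
    intro p hp
    rw [hGdef]
    simp [hp]
  have sT : Ts ⊆ PM ∪ G := by
    intro p hp
    rw [hGdef]
    simp [hp]
  obtain ⟨Λ, hΛ, hdΛ, hΛc, hcov⟩ := step_thm2 k hk A e r (PM ∪ G) Us Ws Ts hP hPc sU sW sT
    dUW dTU dTW cU cW cT hA he hr hr0
  have dPMΛ : Disjoint PM Λ := Finset.disjoint_of_subset_left Finset.subset_union_left hdΛ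
  have dGΛ : Disjoint G Λ := Finset.disjoint_of_subset_left Finset.subset_union_right hdΛ
  have hΛne : Λ.Nonempty := by
    rw [← Finset.card_pos, hΛc]
    exact hr0
  have hq : 1 < ∏ ℓ ∈ Λ, ℓ := by
    have := (sum_le_prod_of_two_le Λ (fun p hp => (hΛ p hp).1.two_le)).2 hΛne
    omega
  have hco : Nat.Coprime (∏ p ∈ PM ∪ G, p) (∏ ℓ ∈ Λ, ℓ) :=
    coprime_prod_prod (PM ∪ G) Λ (fun p hp => (hP p hp).1) (fun p hp => (hΛ p hp).1) hdΛ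
  have hzr : (2 ^ (9 * k + 24)) ^ r ≤ ∏ ℓ ∈ Λ, ℓ := by
    rw [← hΛc]
    exact Finset.pow_card_le_prod _ _ _ (fun p hp => (hΛ p hp).2.1.le)
  have hB : (2 ^ (18 * k + 48)) ^ (2 * A + 4) ≤ ∏ p ∈ PM, p := by
    refine le_trans ?_ hz
    have e1 : (2 ^ (18 * k + 48)) ^ (2 * A + 4) = (2 ^ (9 * k + 24)) ^ (4 * A + 8) := by
      rw [← pow_mul, ← pow_mul]
      congr 1
      ring
    rw [e1]
    exact Nat.pow_le_pow_right Nat.one_le_two_pow hμ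
  refine ⟨PM ∪ Λ, ?_, ?_, ?_, ?_, ?_⟩
  · intro p hp
    rcases Finset.mem_union.1 hp with hp | hp
    · exact hPM p hp
    · exact ⟨(hΛ p hp).1, (hΛ p hp).2.2⟩
  · exact Finset.disjoint_union_left.2 ⟨hdisj, dGΛ.symm⟩
  · rw [Finset.card_union_of_disjoint dPMΛ, hΛc]
    omega
  · rw [Finset.prod_union dPMΛ, pow_add]
    exact Nat.mul_le_mul hz hzr
  · have e1 : PM ∪ Λ ∪ G = (PM ∪ G) ∪ Λ := Finset.union_right_comm PM Λ G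
    rw [e1, Finset.prod_union hdΛ, Finset.prod_union dPMΛ]
    exact RepUpTo.step hq hco hrep (hcov.mono hB)

theorem chain_iter (k : ℕ) (hk : 10 ≤ k) (Us Ws Ts : Finset ℕ) (hU : Uni k Us Ws Ts)
    (A e r : ℕ) (hA : 2 * A ≤ 2 ^ k) (he : 2 ^ e ≤ (2 ^ (k - 1)).choose A)
    (hr : 4 + r * (54 * k + 145) ≤ 4 * e) (hr0 : 0 < r) (c₀ target : ℕ)
    (hcard : c₀ + target + 2 ^ k + 4 ≤ 2 ^ (2 * k + 2)) (n : ℕ) :
    ∀ (PM : Finset ℕ) (μ f : ℕ), St k (Us ∪ Ws ∪ Ts) PM c₀ μ f → 4 * A + 8 ≤ μ →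
      target ≤ μ + n * r →
      ∃ PM' μ' f', St k (Us ∪ Ws ∪ Ts) PM' c₀ μ' f' ∧ target ≤ μ' ∧
        (μ' = μ ∨ μ' ≤ target + r) ∧ f' ≤ f + 4 * n := by
  induction n with
  | zero =>
    intro PM μ f hSt hμ ht
    exact ⟨PM, μ, f, hSt, by omega, Or.inl rfl, by omega⟩
  | succ n ih =>
    intro PM μ f hSt hμ ht
    by_cases hbig : target ≤ μ
    · exact ⟨PM, μ, f, hSt, hbig, Or.inl rfl, by omega⟩
    · obtain ⟨PM₁, hSt₁⟩ := chain_step k hk Us Ws Ts hU A e r hA he hr hr0 PM c₀ μ f hSt hμ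
        (by omega)
      obtain ⟨PM', μ', f', h1, h2, h3, h4⟩ := ih PM₁ (μ + r) (f + 4) hSt₁ (by omega) (by
        have : (n + 1) * r = n * r + r := by ring
        omega)
      refine ⟨PM', μ', f', h1, h2, ?_, by omega⟩
      right
      rcases h3 with h3 | h3 <;> omega

end Vale.Agent.Lib.P012
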