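import Mathlib
import Vale.Agent.Lib.P012.Defs2

namespace Vale.Agent.Lib.P012

open Finset

theorem cost_sum (k i₀ : ℕ) (hk : 10 ≤ k) (h : i₀ + 2 ≤ k) :
    ((∑ i ∈ Finset.Ico i₀ (k - 2), (2 * (54 * k + 145) / (k - 1 - i) + 1) : ℕ) : ℝ)
      ≤ 2 * (54 * k + 145) * (1 + Real.log k) + k := by
  have hharm : (∑ j ∈ Finset.range k, ((j : ℝ) + 1)⁻¹) ≤ 1 + Real.log k := by
    have h1 := harmonic_le_one_add_log k
    have h2 : ((harmonic k : ℚ) : ℝ) = ∑ j ∈ Finset.range k, ((j : ℝ) + 1)⁻¹ := by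
      unfold harmonic
      push_cast
      rfl
    rw [h2] at h1
    exact h1
  have hsub : (∑ i ∈ Finset.Ico i₀ (k - 2), (((k - 1 - i : ℕ) : ℝ))⁻¹)
      ≤ ∑ j ∈ Finset.range k, ((j : ℝ) + 1)⁻¹ := by
    have himg : (∑ i ∈ Finset.Ico i₀ (k - 2), (((k - 1 - i : ℕ) : ℝ))⁻¹)
        = ∑ j ∈ (Finset.Ico i₀ (k - 2)).image (fun i => k - 2 - i), ((j : ℝ) + 1)⁻¹ := by
      rw [Finset.sum_image]
      · apply Finset.sum_congr rfl
        intro i hi
        rw [Finset.mem_Ico] at hi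
        have : k - 1 - i = (k - 2 - i) + 1 := by omega
        rw [this]
        push_cast
        rfl
      · intro a ha b hb hab
        have ha' := Finset.mem_Ico.mp (Finset.mem_coe.mp ha)
        have hb' := Finset.mem_Ico.mp (Finset.mem_coe.mp hb)
        simp only at hab
        omega
    rw [himg]
    apply Finset.sum_le_sum_of_subset_of_nonneg
    · intro j hj
      rw [Finset.mem_image] at hj
      obtain ⟨i, hi, rfl⟩ := hj
      rw [Finset.mem_range]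
      omega
    · intro j _ _
      positivity
  have hcard : (((Finset.Ico i₀ (k - 2)).card : ℕ) : ℝ) ≤ k := by
    rw [Nat.card_Ico]
    exact_mod_cast (by omega : k - 2 - i₀ ≤ k)
  have hterm : ∀ i ∈ Finset.Ico i₀ (k - 2),
      (((2 * (54 * k + 145) / (k - 1 - i) + 1 : ℕ)) : ℝ)
        ≤ 2 * (54 * k + 145) * (((k - 1 - i : ℕ) : ℝ))⁻¹ + 1 := by
    intro i _
    have h1 : (((2 * (54 * k + 145) / (k - 1 - i) : ℕ)) : ℝ)
        ≤ ((2 * (54 * k + 145) : ℕ) : ℝ) / ((k - 1 - i : ℕ) : ℝ) := Nat.cast_div_le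
    rw [div_eq_mul_inv] at h1
    push_cast at h1 ⊢
    linarith
  calc ((∑ i ∈ Finset.Ico i₀ (k - 2), (2 * (54 * k + 145) / (k - 1 - i) + 1) : ℕ) : ℝ)
      = ∑ i ∈ Finset.Ico i₀ (k - 2), (((2 * (54 * k + 145) / (k - 1 - i) + 1 : ℕ)) : ℝ) := by
        rw [Nat.cast_sum]
    _ ≤ ∑ i ∈ Finset.Ico i₀ (k - 2),
          (2 * (54 * k + 145) * (((k - 1 - i : ℕ) : ℝ))⁻¹ + 1) := Finset.sum_le_sum hterm
    _ = 2 * (54 * k + 145) * (∑ i ∈ Finset.Ico i₀ (k - 2), (((k - 1 - i : ℕ) : ℝ))⁻¹)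
          + ((Finset.Ico i₀ (k - 2)).card : ℝ) := by
        rw [Finset.sum_add_distrib, Finset.mul_sum]
        simp
    _ ≤ 2 * (54 * k + 145) * (1 + Real.log k) + k := by
        have hpos : (0 : ℝ) ≤ 2 * (54 * k + 145) := by positivity
        have := mul_le_mul_of_nonneg_left (hsub.trans hharm) hpos
        linarith

end Vale.Agent.Lib.P012
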