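import Mathlib
import Vale.Agent.Lib.P012.Defs

namespace Vale.Agent.Lib.P012

open Finset

/-- From a number `N ≥ b` all of whose smaller numbers are short sums of divisors, to a short
Egyptian fraction for `a / b`. -/
theorem egypt_of_rep {N f a b : ℕ} (h : Rep N f) (hb : b ≤ N) (hab : a < b) :
    ∃ S : Finset ℕ, (∀ n ∈ S, 2 ≤ n) ∧ ∑ n ∈ S, (1 / (n : ℚ)) = (a : ℚ) / b ∧
      S.card ≤ 2 * f := by
  have hb0 : 0 < b := by omega
  have hN0 : 0 < N := by omega
  set Q := a * N / b with hQ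
  set r := a * N % b with hr
  have hdiv : b * Q + r = a * N := Nat.div_add_mod (a * N) b
  have hrb : r < b := Nat.mod_lt _ hb0
  have hQN : Q < N := by
    rw [hQ, Nat.div_lt_iff_lt_mul hb0, mul_comm N b]
    exact Nat.mul_lt_mul_of_pos_right hab hN0
  obtain ⟨D1, hD1, hc1, hs1⟩ := h Q hQN.le
  obtain ⟨D2, hD2, hc2, hs2⟩ := h r (by omega)
  have hd1 : ∀ d ∈ D1, d ∣ N ∧ 0 < d ∧ d < N := by
    intro d hd
    have h1 := Nat.dvd_of_mem_divisors (hD1 hd)
    have h2 : d ≤ ∑ x ∈ D1, x := Finset.single_le_sum (f := fun x => x) (fun _ _ => Nat.zero_le _) hd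
    exact ⟨h1, Nat.pos_of_dvd_of_pos h1 hN0, by omega⟩
  have hd2 : ∀ d ∈ D2, d ∣ N ∧ 0 < d ∧ d < b := by
    intro d hd
    have h1 := Nat.dvd_of_mem_divisors (hD2 hd)
    have h2 : d ≤ ∑ x ∈ D2, x := Finset.single_le_sum (f := fun x => x) (fun _ _ => Nat.zero_le _) hd
    exact ⟨h1, Nat.pos_of_dvd_of_pos h1 hN0, by omega⟩
  have key : ∀ d, d ∣ N → d * (N / d) = N := fun d hd => Nat.mul_div_cancel' hd
  have inj1 : Set.InjOn (fun d => N / d) (D1 : Set ℕ) := by
    intro x hx y hy hxy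
    have hx' := hd1 x hx
    have hy' := hd1 y hy
    have e1 := key x hx'.1
    have e2 := key y hy'.1
    simp only at hxy
    rw [hxy] at e1
    have hpos : 0 < N / y := Nat.div_pos (Nat.le_of_dvd hN0 hy'.1) hy'.2.1
    exact Nat.eq_of_mul_eq_mul_right hpos (e1.trans e2.symm)
  have inj2 : Set.InjOn (fun d => b * (N / d)) (D2 : Set ℕ) := by
    intro x hx y hy hxy
    have hx' := hd2 x hx
    have hy' := hd2 y hy
    have e1 := key x hx'.1
    have e2 := key y hy'.1
    simp only at hxy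
    have hxy' : N / x = N / y := Nat.eq_of_mul_eq_mul_left hb0 hxy
    rw [hxy'] at e1
    have hpos : 0 < N / y := Nat.div_pos (Nat.le_of_dvd hN0 hy'.1) hy'.2.1
    exact Nat.eq_of_mul_eq_mul_right hpos (e1.trans e2.symm)
  have small1 : ∀ d ∈ D1, 2 ≤ N / d ∧ N / d ≤ N := by
    intro d hd
    obtain ⟨h1, h2, h3⟩ := hd1 d hd
    have e := key d h1
    refine ⟨?_, Nat.div_le_self _ _⟩
    generalize N / d = w at e
    by_contra hlt
    have : w = 0 ∨ w = 1 := by omega
    rcases this with h0 | h0 <;> rw [h0] at e <;> omega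
  have big2 : ∀ d ∈ D2, N < b * (N / d) := by
    intro d hd
    obtain ⟨h1, h2, h3⟩ := hd2 d hd
    have e := key d h1
    have hpos : 0 < N / d := Nat.div_pos (Nat.le_of_dvd hN0 h1) h2
    calc N = d * (N / d) := e.symm
      _ < b * (N / d) := Nat.mul_lt_mul_of_pos_right h3 hpos
  have hdisj : Disjoint (D1.image (fun d => N / d)) (D2.image (fun d => b * (N / d))) := by
    rw [Finset.disjoint_left]
    intro n hn hn'
    obtain ⟨d, hd, rfl⟩ := Finset.mem_image.1 hn
    obtain ⟨e, he, hee⟩ := Finset.mem_image.1 hn'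
    have := (small1 d hd).2
    have := big2 e he
    omega
  refine ⟨D1.image (fun d => N / d) ∪ D2.image (fun d => b * (N / d)), ?_, ?_, ?_⟩
  · intro n hn
    rcases Finset.mem_union.1 hn with hn | hn
    · obtain ⟨d, hd, rfl⟩ := Finset.mem_image.1 hn
      exact (small1 d hd).1
    · obtain ⟨d, hd, rfl⟩ := Finset.mem_image.1 hn
      have := big2 d hd
      omega
  · rw [Finset.sum_union hdisj, Finset.sum_image inj1, Finset.sum_image inj2]
    have hNq : (N : ℚ) ≠ 0 := by exact_mod_cast hN0.ne'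
    have hbq : (b : ℚ) ≠ 0 := by exact_mod_cast hb0.ne'
    have s1 : ∑ d ∈ D1, (1 / ((N / d : ℕ) : ℚ)) = (Q : ℚ) / N := by
      rw [← hs1, Nat.cast_sum, Finset.sum_div]
      apply Finset.sum_congr rfl
      intro d hd
      obtain ⟨h1, h2, h3⟩ := hd1 d hd
      have hdq : (d : ℚ) ≠ 0 := by exact_mod_cast h2.ne'
      rw [Nat.cast_div h1 hdq]
      field_simp
    have s2 : ∑ d ∈ D2, (1 / ((b * (N / d) : ℕ) : ℚ)) = (r : ℚ) / (b * N) := by
      rw [← hs2, Nat.cast_sum, Finset.sum_div]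
      apply Finset.sum_congr rfl
      intro d hd
      obtain ⟨h1, h2, h3⟩ := hd2 d hd
      have hdq : (d : ℚ) ≠ 0 := by exact_mod_cast h2.ne'
      rw [Nat.cast_mul, Nat.cast_div h1 hdq]
      field_simp
    rw [s1, s2]
    have hq : (b : ℚ) * Q + r = a * N := by exact_mod_cast hdiv
    field_simp
    linarith
  · calc _ ≤ (D1.image (fun d => N / d)).card + (D2.image (fun d => b * (N / d))).card :=
          Finset.card_union_le _ _
      _ ≤ D1.card + D2.card := Nat.add_le_add Finset.card_image_le Finset.card_image_le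
      _ ≤ 2 * f := by omega

end Vale.Agent.Lib.P012
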