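import Mathlib
import Vale.Agent.Lib.P012.Defs

namespace Vale.Agent.Lib.P012

open Finset

theorem final_numeric (b : ℕ) (hb : 16 ≤ b) :
    ∃ k : ℕ, 10 ≤ k ∧ b ≤ 2 ^ (2 ^ k) ∧ (k : ℝ) ≤ 15 * Real.log (Real.log b) := by
  set j := Nat.clog 2 b with hj
  set i := Nat.clog 2 j with hi
  have hl2 : (0.6931471803 : ℝ) < Real.log 2 := Real.log_two_gt_d9
  have hl2' : Real.log 2 < (0.6931471808 : ℝ) := Real.log_two_lt_d9
  have hbR : (16 : ℝ) ≤ b := by exact_mod_cast hb
  have hbpos : (0 : ℝ) < b := by linarith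
  -- log b ≥ 4 log 2
  have hlogb : 4 * Real.log 2 ≤ Real.log b := by
    have h16 : Real.log 16 = 4 * Real.log 2 := by
      rw [show (16 : ℝ) = 2 ^ 4 by norm_num, Real.log_pow]; norm_num
    rw [← h16]
    exact Real.log_le_log (by norm_num) hbR
  have hlogb_e : Real.exp 1 ≤ Real.log b := by
    have := Real.exp_one_lt_d9
    linarith
  have hlogbpos : 0 < Real.log b := lt_of_lt_of_le (Real.exp_pos 1) hlogb_e
  set L := Real.log (Real.log b) with hL
  have hL1 : 1 ≤ L := by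
    rw [hL, Real.le_log_iff_exp_le hlogbpos]
    exact hlogb_e
  have hb1 : b ≤ 2 ^ j := Nat.le_pow_clog (by norm_num) b
  have hj1 : j ≤ 2 ^ i := Nat.le_pow_clog (by norm_num) j
  -- j ≥ 4
  have hj4 : 4 ≤ j := by
    by_contra h
    have h3 : j ≤ 3 := by omega
    have : 2 ^ j ≤ 2 ^ 3 := Nat.pow_le_pow_right (by norm_num) h3
    omega
  have hb2 : 2 ^ (j - 1) < b := Nat.pow_pred_clog_lt_self (by norm_num) (by omega)
  have hj2 : 2 ^ (i - 1) < j := Nat.pow_pred_clog_lt_self (by norm_num) (by omega)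
  have hi1 : 1 ≤ i := by
    by_contra h
    have h0 : i = 0 := by omega
    rw [h0] at hj1
    omega
  -- real versions
  have hjR : ((j : ℝ) - 1) * Real.log 2 < Real.log b := by
    have h : ((2 ^ (j - 1) : ℕ) : ℝ) < (b : ℝ) := by exact_mod_cast hb2
    have h2 : Real.log ((2 ^ (j - 1) : ℕ) : ℝ) < Real.log b :=
      Real.log_lt_log (by positivity) h
    rw [Nat.cast_pow, Real.log_pow] at h2
    have h3 : ((j - 1 : ℕ) : ℝ) = (j : ℝ) - 1 := by
      rw [Nat.cast_sub (by omega)]; norm_num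
    rw [h3] at h2
    exact_mod_cast h2
  have hjpos : (0 : ℝ) < j := by
    have : (4 : ℝ) ≤ j := by exact_mod_cast hj4
    linarith
  have hiR : ((i : ℝ) - 1) * Real.log 2 < Real.log j := by
    have h : ((2 ^ (i - 1) : ℕ) : ℝ) < (j : ℝ) := by exact_mod_cast hj2
    have h2 : Real.log ((2 ^ (i - 1) : ℕ) : ℝ) < Real.log j :=
      Real.log_lt_log (by positivity) h
    rw [Nat.cast_pow, Real.log_pow] at h2
    have h3 : ((i - 1 : ℕ) : ℝ) = (i : ℝ) - 1 := by
      rw [Nat.cast_sub hi1]; norm_num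
    rw [h3] at h2
    exact_mod_cast h2
  -- j ≤ 4 log b
  have hj3 : (j : ℝ) ≤ 4 * Real.log b := by
    nlinarith
  have hlogj : Real.log j ≤ 2 * Real.log 2 + L := by
    have h4 : Real.log 4 = 2 * Real.log 2 := by
      rw [show (4 : ℝ) = 2 ^ 2 by norm_num, Real.log_pow]; norm_num
    calc Real.log j ≤ Real.log (4 * Real.log b) := Real.log_le_log hjpos hj3
      _ = Real.log 4 + L := by
          rw [Real.log_mul (by norm_num) hlogbpos.ne']
      _ = 2 * Real.log 2 + L := by rw [h4]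
  have hi5 : (i : ℝ) ≤ 5 * L := by
    have h1 : ((i : ℝ) - 3) * Real.log 2 < L := by nlinarith
    have h2 : ((i : ℝ) - 3) * (1 / 2) ≤ L := by
      by_cases h : (i : ℝ) - 3 ≤ 0
      · nlinarith
      · push Not at h
        nlinarith
    linarith
  refine ⟨10 + i, by omega, ?_, ?_⟩
  · calc b ≤ 2 ^ j := hb1
      _ ≤ 2 ^ (2 ^ i) := Nat.pow_le_pow_right (by norm_num) hj1
      _ ≤ 2 ^ (2 ^ (10 + i)) :=
          Nat.pow_le_pow_right (by norm_num) (Nat.pow_le_pow_right (by norm_num) (by omega))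
  · push_cast
    linarith

end Vale.Agent.Lib.P012
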