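import Mathlib
import Vale.Agent.Lib.P012.Defs
import Vale.Agent.Lib.P012.Pool
import Vale.Agent.Lib.P012.FinalNumeric
import Vale.Agent.Lib.P012.Basic
import Vale.Agent.Lib.P012.Egypt
import Vale.Agent.Lib.P012.Params
import Vale.Agent.Lib.P012.StepThm

namespace Vale.Agent.Lib.P012

open Finset

/-- the invariant of epoch `k` -/
def Good (k : ℕ) (P : Finset ℕ) (f : ℕ) : Prop :=
  (∀ p ∈ P, p.Prime ∧ p ≤ 2 ^ (18 * k + 48)) ∧ 2 ^ k + 4 ≤ P.card ∧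
    P.card ≤ 2 ^ (2 * k + 2) ∧ Rep (∏ p ∈ P, p) f

theorem epoch_aux (k : ℕ) (hk : 10 ≤ k) (j : ℕ) : ∀ (P : Finset ℕ) (f : ℕ), Good k P f →
    2 ^ (k + 1) + 4 ≤ P.card + j * rk k →
    ∃ P' f', (∀ p ∈ P', p.Prime ∧ p ≤ 2 ^ (18 * k + 48)) ∧ 2 ^ (k + 1) + 4 ≤ P'.card ∧
      P'.card ≤ 2 ^ (2 * k + 2) ∧ Rep (∏ p ∈ P', p) f' ∧ f' ≤ f + 4 * j := by
  induction j with
  | zero =>
    intro P f hG hc
    exact ⟨P, f, hG.1, by omega, hG.2.2.1, hG.2.2.2, by omega⟩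
  | succ j ih =>
    intro P f hG hc
    by_cases hbig : 2 ^ (k + 1) + 4 ≤ P.card
    · exact ⟨P, f, hG.1, hbig, hG.2.2.1, hG.2.2.2, by omega⟩
    · obtain ⟨hPp, hc1, hc2, hrep⟩ := hG
      obtain ⟨Λ, hΛ, hdisj, hΛc, hcov⟩ := step_thm k hk P hPp hc1 hc2
      have hΛne : Λ.Nonempty := by
        rw [← Finset.card_pos, hΛc]
        exact rk_pos k hk
      have hq : 1 < ∏ ℓ ∈ Λ, ℓ := by
        have := (sum_le_prod_of_two_le Λ (fun p hp => (hΛ p hp).1.two_le)).2 hΛne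
        omega
      have hco : Nat.Coprime (∏ p ∈ P, p) (∏ ℓ ∈ Λ, ℓ) :=
        coprime_prod_prod P Λ (fun p hp => (hPp p hp).1) (fun p hp => (hΛ p hp).1) hdisj
      have hrep' : Rep (∏ p ∈ P ∪ Λ, p) (f + 4) := by
        rw [Finset.prod_union hdisj]
        exact Rep.step hq hco hrep hcov
      have hcard : (P ∪ Λ).card = P.card + rk k := by
        rw [Finset.card_union_of_disjoint hdisj, hΛc]
      have hrk := rk_le k
      have e1 : 2 ^ (k + 1) = 2 * 2 ^ k := by ring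
      have e2 : 2 ^ (2 * k + 2) = 4 * (2 ^ k * 2 ^ k) := by ring
      have e3 : 1 ≤ 2 ^ k := Nat.one_le_two_pow
      have e4 : 2 ^ k ≤ 2 ^ k * 2 ^ k := Nat.le_mul_of_pos_left _ (by omega)
      have e5 : 2 ^ 10 ≤ 2 ^ k := Nat.pow_le_pow_right (by norm_num) hk
      have hG' : Good k (P ∪ Λ) (f + 4) := by
        refine ⟨?_, by omega, by omega, hrep'⟩
        intro p hp
        rcases Finset.mem_union.1 hp with hp | hp
        · exact hPp p hp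
        · exact hΛ p hp
      obtain ⟨P', f', h1, h2, h3, h4, h5⟩ := ih (P ∪ Λ) (f + 4) hG' (by
        rw [hcard]
        have : (j + 1) * rk k = j * rk k + rk k := by ring
        omega)
      exact ⟨P', f', h1, h2, h3, h4, by omega⟩

theorem epoch (k : ℕ) (hk : 10 ≤ k) (P : Finset ℕ) (f : ℕ) (hG : Good k P f) :
    ∃ P' f', Good (k + 1) P' f' ∧ f' ≤ f + 4 * (54 * k + 145) := by
  obtain ⟨P', f', h1, h2, h3, h4, h5⟩ := epoch_aux k hk (54 * k + 145) P f hG (by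
    have := rk_steps k hk
    have := hG.2.1
    have e1 : 2 ^ (k + 1) = 2 * 2 ^ k := by ring
    omega)
  refine ⟨P', f', ⟨?_, h2, ?_, h4⟩, h5⟩
  · intro p hp
    refine ⟨(h1 p hp).1, (h1 p hp).2.trans ?_⟩
    exact Nat.pow_le_pow_right (by norm_num) (by omega)
  · exact h3.trans (Nat.pow_le_pow_right (by norm_num) (by omega))

theorem base_good : ∃ P f, Good 10 P f := by
  obtain ⟨f, hf⟩ := rep_primorial (2 ^ 21)
  refine ⟨(Finset.range (2 ^ 21 + 1)).filter Nat.Prime, f, ?_, ?_, ?_, hf⟩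
  · intro p hp
    rw [Finset.mem_filter, Finset.mem_range] at hp
    refine ⟨hp.2, ?_⟩
    calc p ≤ 2 ^ 21 := by omega
      _ ≤ 2 ^ (18 * 10 + 48) := Nat.pow_le_pow_right (by norm_num) (by norm_num)
  · have h := pi_two_pow_ge 21 (by norm_num)
    have e : Nat.primeCounting (2 ^ 21) = ((Finset.range (2 ^ 21 + 1)).filter Nat.Prime).card := by
      rw [Nat.primeCounting, Nat.primeCounting', Nat.count_eq_card_filter_range]
    rw [e] at h
    have h2 : ((2 ^ 10 + 4 : ℕ) : ℝ) ≤ (((Finset.range (2 ^ 21 + 1)).filter Nat.Prime).card : ℝ) := by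
      refine le_trans ?_ h
      norm_num
    exact_mod_cast h2
  · calc ((Finset.range (2 ^ 21 + 1)).filter Nat.Prime).card ≤ (Finset.range (2 ^ 21 + 1)).card :=
          Finset.card_filter_le _ _
      _ = 2 ^ 21 + 1 := Finset.card_range _
      _ ≤ 2 ^ (2 * 10 + 2) := by norm_num

theorem all_good : ∃ f₀ : ℕ, ∀ k, 10 ≤ k → ∃ P f, Good k P f ∧ f ≤ f₀ + 300 * k ^ 2 := by
  obtain ⟨P₀, f₀, h₀⟩ := base_good
  refine ⟨f₀, ?_⟩
  intro k hk
  induction k, hk using Nat.le_induction with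
  | base => exact ⟨P₀, f₀, h₀, by omega⟩
  | succ k hk ih =>
    obtain ⟨P, f, hG, hf⟩ := ih
    obtain ⟨P', f', hG', hf'⟩ := epoch k hk P f hG
    refine ⟨P', f', hG', ?_⟩
    nlinarith

/-- **Main theorem**: `N(b) ≪ (log log b)^2`. -/
theorem main_bound : ∃ C : ℝ, ∀ a b : ℕ, a < b → 16 ≤ b →
    ∃ S : Finset ℕ, (∀ n ∈ S, 2 ≤ n) ∧ ∑ n ∈ S, (1 / (n : ℚ)) = (a : ℚ) / b ∧
      (S.card : ℝ) ≤ C * (Real.log (Real.log b)) ^ 2 := by
  obtain ⟨f₀, h₀⟩ := all_good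
  refine ⟨5 * f₀ + 135000, ?_⟩
  intro a b hab hb
  obtain ⟨k, hk10, hbk, hkL⟩ := final_numeric b hb
  obtain ⟨P, f, hG, hf⟩ := h₀ k hk10
  have hN : b ≤ ∏ p ∈ P, p := by
    calc b ≤ 2 ^ (2 ^ k) := hbk
      _ ≤ 2 ^ P.card := Nat.pow_le_pow_right (by norm_num) (by have := hG.2.1; omega)
      _ ≤ ∏ p ∈ P, p := Finset.pow_card_le_prod _ _ _ (fun p hp => (hG.1 p hp).1.two_le)
  obtain ⟨S, hS2, hSsum, hScard⟩ := egypt_of_rep hG.2.2.2 hN hab
  refine ⟨S, hS2, hSsum, ?_⟩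
  set L := Real.log (Real.log b) with hL
  have hk10' : (10 : ℝ) ≤ k := by exact_mod_cast hk10
  have hL1 : (2 : ℝ) / 3 ≤ L := by linarith
  have hL2 : (4 : ℝ) / 9 ≤ L ^ 2 := by nlinarith
  have hk2 : (k : ℝ) ^ 2 ≤ 225 * L ^ 2 := by nlinarith
  have hc : (S.card : ℝ) ≤ 2 * f₀ + 600 * (k : ℝ) ^ 2 := by
    have : S.card ≤ 2 * f₀ + 600 * k ^ 2 := by omega
    exact_mod_cast this
  have hf0 : (0 : ℝ) ≤ f₀ := Nat.cast_nonneg _
  nlinarith

end Vale.Agent.Lib.P012
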