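import Mathlib
import Vale.Agent.Lib.P012.Defs2
import Vale.Agent.Lib.P012.FinalNumeric

namespace Vale.Agent.Lib.P012

open Finset

theorem final_numeric2 (b : ℕ) (hb : 2 ^ 32 ≤ b) :
    ∃ k : ℕ, 30 ≤ k ∧ b ≤ 2 ^ (2 ^ k) ∧
      (k : ℝ) * (1 + Real.log k)
        ≤ 200 * (Real.log (Real.log b) * Real.log (Real.log (Real.log b))) := by
  obtain ⟨k1, hk1, hbk, hkL⟩ := final_numeric b (by
    have : (16 : ℕ) ≤ 2 ^ 32 := by norm_num
    omega)
  have hl2 : (0.6931471803 : ℝ) < Real.log 2 := Real.log_two_gt_d9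
  have hl2' : Real.log 2 < (0.6931471808 : ℝ) := Real.log_two_lt_d9
  have he : Real.exp 1 < 2.7182818286 := Real.exp_one_lt_d9
  have hbR : ((2 : ℝ) ^ 32) ≤ b := by exact_mod_cast hb
  have hlogb : 32 * Real.log 2 ≤ Real.log b := by
    have h32 : Real.log ((2 : ℝ) ^ 32) = 32 * Real.log 2 := by
      rw [Real.log_pow]; norm_num
    rw [← h32]
    exact Real.log_le_log (by norm_num) hbR
  have hexp3 : Real.exp 3 ≤ Real.log b := by
    have h3 : Real.exp 3 = Real.exp 1 ^ 3 := by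
      rw [← Real.exp_nat_mul]; norm_num
    have h4 : Real.exp 1 ^ 3 ≤ (2.7182818286 : ℝ) ^ 3 :=
      pow_le_pow_left₀ (Real.exp_pos 1).le he.le 3
    have h5 : (2.7182818286 : ℝ) ^ 3 ≤ 21 := by norm_num
    rw [h3]
    linarith
  have hlogbpos : 0 < Real.log b := lt_of_lt_of_le (Real.exp_pos 3) hexp3
  set L := Real.log (Real.log b) with hL
  have hL3 : 3 ≤ L := by
    rw [hL, Real.le_log_iff_exp_le hlogbpos]
    exact hexp3
  have hLpos : 0 < L := by linarith
  have hlogL : 1 ≤ Real.log L := by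
    rw [Real.le_log_iff_exp_le hLpos]
    linarith
  refine ⟨k1 + 20, by omega, ?_, ?_⟩
  · refine hbk.trans ?_
    apply Nat.pow_le_pow_right (by norm_num)
    apply Nat.pow_le_pow_right (by norm_num)
    omega
  · have hk : ((k1 + 20 : ℕ) : ℝ) ≤ 22 * L := by
      push_cast
      linarith
    have hkpos : (0 : ℝ) < ((k1 + 20 : ℕ) : ℝ) := by positivity
    have hlogk : Real.log ((k1 + 20 : ℕ) : ℝ) ≤ 3.5 + Real.log L := by
      have h1 : Real.log ((k1 + 20 : ℕ) : ℝ) ≤ Real.log (32 * L) :=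
        Real.log_le_log hkpos (by linarith)
      have h2 : Real.log (32 * L) = Real.log 32 + Real.log L :=
        Real.log_mul (by norm_num) hLpos.ne'
      have h3 : Real.log 32 = 5 * Real.log 2 := by
        rw [show (32 : ℝ) = 2 ^ 5 by norm_num, Real.log_pow]; norm_num
      linarith
    have h1 : 1 + Real.log ((k1 + 20 : ℕ) : ℝ) ≤ 5.5 * Real.log L := by linarith
    have h0 : 0 ≤ 1 + Real.log ((k1 + 20 : ℕ) : ℝ) := by
      have : 0 ≤ Real.log ((k1 + 20 : ℕ) : ℝ) := Real.log_natCast_nonneg _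
      linarith
    calc ((k1 + 20 : ℕ) : ℝ) * (1 + Real.log ((k1 + 20 : ℕ) : ℝ))
        ≤ (22 * L) * (5.5 * Real.log L) :=
          mul_le_mul hk h1 h0 (by positivity)
      _ = 121 * (L * Real.log L) := by ring
      _ ≤ 200 * (L * Real.log L) := by
          have : 0 ≤ L * Real.log L := by positivity
          linarith

end Vale.Agent.Lib.P012
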