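import Mathlib
import Vale.Agent.Lib.P012.Defs2

/-!
# P012 (V1): the Fibonacci-Sylvester greedy phase
-/

namespace Vale.Agent.Lib.P012

open Finset

theorem greedy_phase_aux (t : ℕ) : ∀ (w p c X : ℕ), 2 ≤ w → 0 < c → p * w < c → 1 ≤ X →
    X ≤ w ^ (2 ^ t) →
    ∃ (F : Finset ℕ) (p' : ℕ), F.card ≤ t ∧
      (∀ e ∈ F, w < e ∧ p' * e < c * ∏ x ∈ F, x) ∧
      p' * w < c * ∏ x ∈ F, x ∧ p' * X < c * ∏ x ∈ F, x ∧
      (F = ∅ ∨ w * ∏ x ∈ F, x ≤ X ^ 2) ∧
      (p : ℚ) / (c : ℚ) = ∑ e ∈ F, (1 / (e : ℚ)) + (p' : ℚ) / ((c * ∏ x ∈ F, x : ℕ) : ℚ) := by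
  induction t with
  | zero =>
    intro w p c X hw hc hpw hX1 hX
    have hXw : X ≤ w := by simpa using hX
    have hpX : p * X < c := lt_of_le_of_lt (Nat.mul_le_mul_left p hXw) hpw
    refine ⟨∅, p, by simp, by simp, by simpa using hpw, by simpa using hpX, Or.inl rfl, by simp⟩
  | succ t ih =>
    intro w p c X hw hc hpw hX1 hX
    by_cases hpX : p * X < c
    · refine ⟨∅, p, by simp, by simp, by simpa using hpw, by simpa using hpX, Or.inl rfl,
        by simp⟩
    · have hcX : c ≤ p * X := not_lt.1 hpX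
      have hp : 0 < p := by
        rcases Nat.eq_zero_or_pos p with h | h
        · subst h; simp at hcX; omega
        · exact h
      -- q = e - 1
      obtain ⟨q, hq1, hq2⟩ : ∃ q : ℕ, p * q < c ∧ c ≤ p * (q + 1) := by
        refine ⟨(c - 1) / p, ?_, ?_⟩
        · have h := Nat.mul_div_le (c - 1) p
          omega
        · have h := Nat.lt_mul_div_succ (c - 1) hp
          omega
      have hwq : w ≤ q := by
        have h : p * w < p * (q + 1) := lt_of_lt_of_le hpw hq2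
        have := Nat.lt_of_mul_lt_mul_left h
        omega
      have hqX : q + 1 ≤ X := by
        have h : p * q < p * X := lt_of_lt_of_le hq1 hcX
        have := Nat.lt_of_mul_lt_mul_left h
        omega
      obtain ⟨p1, hp1⟩ : ∃ p1 : ℕ, p1 + c = p * (q + 1) := ⟨p * (q + 1) - c, by omega⟩
      have hp1q : p1 * q < c := by
        have h1 : (p1 + c) * q = (p * q) * (q + 1) := by rw [hp1]; ring
        have h2 : (p * q) * (q + 1) < c * (q + 1) := Nat.mul_lt_mul_of_pos_right hq1 (by omega)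
        nlinarith
      have hw1 : 2 ≤ (q + 1) * q := by nlinarith
      have hc1 : 0 < c * (q + 1) := by positivity
      have hpw1 : p1 * ((q + 1) * q) < c * (q + 1) := by
        have := Nat.mul_lt_mul_of_pos_right hp1q (show 0 < q + 1 by omega)
        calc p1 * ((q + 1) * q) = p1 * q * (q + 1) := by ring
          _ < c * (q + 1) := this
      have hww : w ^ 2 ≤ (q + 1) * q := by nlinarith
      have hX' : X ≤ ((q + 1) * q) ^ (2 ^ t) := by
        calc X ≤ w ^ (2 ^ (t + 1)) := hX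
          _ = (w ^ 2) ^ (2 ^ t) := by rw [← pow_mul]; congr 1; ring
          _ ≤ ((q + 1) * q) ^ (2 ^ t) := Nat.pow_le_pow_left hww _
      obtain ⟨F1, p', hcard, hF1, hw1', hX1', hprod, hid⟩ :=
        ih ((q + 1) * q) p1 (c * (q + 1)) X hw1 hc1 hpw1 hX1 hX'
      have hq1' : 1 ≤ q := by omega
      have hele : q + 1 ≤ (q + 1) * q := by nlinarith
      have hnot : (q + 1) ∉ F1 := by
        intro h
        have := (hF1 _ h).1
        omega
      have hprodF : ∏ x ∈ insert (q + 1) F1, x = (q + 1) * ∏ x ∈ F1, x :=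
        Finset.prod_insert hnot
      have hcF : c * ∏ x ∈ insert (q + 1) F1, x = c * (q + 1) * ∏ x ∈ F1, x := by
        rw [hprodF]; ring
      refine ⟨insert (q + 1) F1, p', ?_, ?_, ?_, ?_, Or.inr ?_, ?_⟩
      · rw [Finset.card_insert_of_notMem hnot]; omega
      · intro e he
        rw [hcF]
        rcases Finset.mem_insert.1 he with rfl | he
        · exact ⟨by omega, lt_of_le_of_lt (Nat.mul_le_mul_left p' hqX) hX1'⟩
        · exact ⟨by have := (hF1 e he).1; omega, (hF1 e he).2⟩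
      · rw [hcF]
        exact lt_of_le_of_lt (Nat.mul_le_mul_left p' (by omega)) hw1'
      · rw [hcF]; exact hX1'
      · rw [hprodF]
        rcases hprod with h | h
        · subst h
          simp only [Finset.prod_empty, mul_one]
          nlinarith
        · calc w * ((q + 1) * ∏ x ∈ F1, x) = (w * (q + 1)) * ∏ x ∈ F1, x := by ring
            _ ≤ ((q + 1) * q) * ∏ x ∈ F1, x := by
                apply Nat.mul_le_mul_right
                nlinarith
            _ ≤ X ^ 2 := h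
      · rw [Finset.sum_insert hnot, hcF, add_assoc, ← hid]
        have hcQ : (c : ℚ) ≠ 0 := by exact_mod_cast hc.ne'
        have hqQ : ((q : ℚ) + 1) ≠ 0 := by positivity
        have hp1Q : (p1 : ℚ) + c = p * (q + 1) := by exact_mod_cast hp1
        have : (p1 : ℚ) = p * (q + 1) - c := by linarith
        push_cast
        rw [this]
        field_simp
        ring

theorem greedy_phase (t : ℕ) : ∀ (w p c X : ℕ), 2 ≤ w → 0 < c → p * w < c → 1 ≤ X →
    X ≤ w ^ (2 ^ t) →
    ∃ (F : Finset ℕ) (p' : ℕ), F.card ≤ t ∧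
      (∀ e ∈ F, w < e ∧ p' * e < c * ∏ x ∈ F, x) ∧
      p' * w < c * ∏ x ∈ F, x ∧ p' * X < c * ∏ x ∈ F, x ∧ ∏ x ∈ F, x ≤ X ^ 2 ∧
      (p : ℚ) / (c : ℚ) = ∑ e ∈ F, (1 / (e : ℚ)) + (p' : ℚ) / ((c * ∏ x ∈ F, x : ℕ) : ℚ) := by
  intro w p c X hw hc hpw hX1 hX
  obtain ⟨F, p', h1, h2, h3, h4, h5, h6⟩ := greedy_phase_aux t w p c X hw hc hpw hX1 hX
  refine ⟨F, p', h1, h2, h3, h4, ?_, h6⟩
  rcases h5 with h | h
  · subst h
    simp only [Finset.prod_empty]
    exact Nat.one_le_pow _ _ (by omega)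
  · refine le_trans ?_ h
    exact Nat.le_mul_of_pos_left _ (by omega)

theorem greedy_full (t a b X : ℕ) (hab : a < b) (hX1 : 1 ≤ X) (hX : X ≤ 2 ^ (2 ^ t)) :
    ∃ (F : Finset ℕ) (p' c' : ℕ), F.card ≤ t + 1 ∧ (∀ e ∈ F, 2 ≤ e ∧ p' * e < c') ∧
      0 < c' ∧ p' * X < c' ∧ c' ≤ 2 * b * X ^ 2 ∧
      (a : ℚ) / (b : ℚ) = ∑ e ∈ F, (1 / (e : ℚ)) + (p' : ℚ) / (c' : ℚ) := by
  have hb : 0 < b := by omega
  by_cases h2 : a * 2 < b
  · obtain ⟨F, p', h1, hF, hw, hXc, hprod, hid⟩ :=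
      greedy_phase t 2 a b X le_rfl hb h2 hX1 hX
    refine ⟨F, p', b * ∏ x ∈ F, x, by omega, ?_, by omega, hXc, ?_, hid⟩
    · intro e he
      exact ⟨by have := (hF e he).1; omega, (hF e he).2⟩
    · calc b * ∏ x ∈ F, x ≤ b * X ^ 2 := Nat.mul_le_mul_left b hprod
        _ ≤ 2 * b * X ^ 2 := by nlinarith [Nat.zero_le (b * X ^ 2)]
  · have h2' : b ≤ a * 2 := not_lt.1 h2
    obtain ⟨p, hp⟩ : ∃ p : ℕ, p + b = a * 2 := ⟨a * 2 - b, by omega⟩
    have hpw : p * 2 < 2 * b := by omega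
    obtain ⟨F, p', h1, hF, hw, hXc, hprod, hid⟩ :=
      greedy_phase t 2 p (2 * b) X le_rfl (by omega) hpw hX1 hX
    have hnot : 2 ∉ F := by
      intro h
      have := (hF 2 h).1
      omega
    refine ⟨insert 2 F, p', 2 * b * ∏ x ∈ F, x, ?_, ?_, by omega, hXc, ?_, ?_⟩
    · rw [Finset.card_insert_of_notMem hnot]; omega
    · intro e he
      rcases Finset.mem_insert.1 he with rfl | he
      · exact ⟨le_rfl, hw⟩
      · exact ⟨by have := (hF e he).1; omega, (hF e he).2⟩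
    · exact Nat.mul_le_mul_left (2 * b) hprod
    · rw [Finset.sum_insert hnot, add_assoc, ← hid]
      have hbQ : (b : ℚ) ≠ 0 := by exact_mod_cast hb.ne'
      have hpQ : (p : ℚ) + b = a * 2 := by exact_mod_cast hp
      have : (p : ℚ) = a * 2 - b := by linarith
      push_cast
      rw [this]
      field_simp
      ring

end Vale.Agent.Lib.P012
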