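import Mathlib
import Vale.Agent.Lib.P012.Defs
import Vale.Agent.Lib.P012.Defs2
import Vale.Agent.Lib.P012.Epoch
import Vale.Agent.Lib.P012.Chain

namespace Vale.Agent.Lib.P012

open Finset

theorem chain_init (k k' i₀ : ℕ) (hk : 10 ≤ k)
    (h3 : (9 * k + 24) * (4 * 2 ^ i₀ + 8) ≤ 2 ^ k') (hk' : k' + 1 ≤ k)
    (Pb : Finset ℕ) (fb : ℕ) (hG : Good k' Pb fb) :
    ∃ Us Ws Ts, Uni k Us Ws Ts ∧ St k (Us ∪ Ws ∪ Ts) Pb Pb.card (4 * 2 ^ i₀ + 8) fb ∧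
      Pb.card ≤ 2 ^ (2 * k) := by
  obtain ⟨hPb, hc1, hc2, hrep⟩ := hG
  have hcard : Pb.card ≤ 2 ^ (2 * k) :=
    hc2.trans (Nat.pow_le_pow_right (by norm_num) (by omega))
  have hcard' : Pb.card ≤ 2 ^ (2 * k + 2) :=
    hcard.trans (Nat.pow_le_pow_right (by norm_num) (by omega))
  obtain ⟨Q, hQ⟩ : ∃ Q, Q = ((Finset.Ioc (2 ^ (9 * k + 24)) (2 ^ (18 * k + 48))).filter Nat.Prime) \ Pb :=
    ⟨_, rfl⟩
  have hQcard := pool_card k Pb hcard'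
  rw [← hQ] at hQcard
  have hQmem : ∀ ℓ ∈ Q, ℓ.Prime ∧ ℓ ≤ 2 ^ (18 * k + 48) ∧ ℓ ∉ Pb := by
    intro ℓ hℓ
    rw [hQ, Finset.mem_sdiff, Finset.mem_filter, Finset.mem_Ioc] at hℓ
    exact ⟨hℓ.1.2, hℓ.1.1.2, hℓ.2⟩
  have hQ2 : 2 * 2 ^ k ≤ Q.card := by
    have h1 : ((2 * 2 ^ k : ℕ) : ℝ) ≤ (Q.card : ℝ) := by
      refine le_trans ?_ ((pool_two_rk k).trans hQcard)
      push_cast
      exact le_rfl
    exact_mod_cast h1
  have h2u : 2 * 2 ^ (k - 1) = 2 ^ k := by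
    obtain ⟨j, rfl⟩ : ∃ j, k = j + 1 := ⟨k - 1, by omega⟩
    simp only [Nat.add_sub_cancel]
    ring
  have h10 : 2 ^ 10 ≤ 2 ^ k := Nat.pow_le_pow_right (by norm_num) hk
  obtain ⟨Us, hUsP, hUsc⟩ := Finset.exists_subset_card_eq (s := Q) (n := 2 ^ (k - 1)) (by omega)
  obtain ⟨Ws, hWsP, hWsc⟩ := Finset.exists_subset_card_eq (s := Q \ Us) (n := 2 ^ (k - 1)) (by
    rw [Finset.card_sdiff_of_subset hUsP]; omega)
  obtain ⟨Ts, hTsP, hTsc⟩ := Finset.exists_subset_card_eq (s := (Q \ Us) \ Ws) (n := 4) (by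
    rw [Finset.card_sdiff_of_subset hWsP, Finset.card_sdiff_of_subset hUsP]; omega)
  have hWsP' : Ws ⊆ Q := hWsP.trans Finset.sdiff_subset
  have hTsP' : Ts ⊆ Q := hTsP.trans (Finset.sdiff_subset.trans Finset.sdiff_subset)
  have dUW : Disjoint Us Ws := by
    rw [Finset.disjoint_left]
    intro p hp hp'
    exact (Finset.mem_sdiff.1 (hWsP hp')).2 hp
  have dTU : Disjoint Ts Us := by
    rw [Finset.disjoint_left]
    intro p hp hp'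
    exact (Finset.mem_sdiff.1 (Finset.mem_sdiff.1 (hTsP hp)).1).2 hp'
  have dTW : Disjoint Ts Ws := by
    rw [Finset.disjoint_left]
    intro p hp hp'
    exact (Finset.mem_sdiff.1 (hTsP hp)).2 hp'
  have hGQ : Us ∪ Ws ∪ Ts ⊆ Q := Finset.union_subset (Finset.union_subset hUsP hWsP') hTsP'
  refine ⟨Us, Ws, Ts, ⟨fun p hp => ⟨(hQmem p (hGQ hp)).1, (hQmem p (hGQ hp)).2.1⟩, dUW, dTU, dTW,
    hUsc, hWsc, hTsc⟩, ⟨?_, ?_, by omega, ?_, ?_⟩, hcard⟩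
  · intro p hp
    exact ⟨(hPb p hp).1, (hPb p hp).2.trans (Nat.pow_le_pow_right (by norm_num) (by omega))⟩
  · rw [Finset.disjoint_right]
    intro p hp
    exact (hQmem p (hGQ hp)).2.2
  · calc (2 ^ (9 * k + 24)) ^ (4 * 2 ^ i₀ + 8) = 2 ^ ((9 * k + 24) * (4 * 2 ^ i₀ + 8)) := by
          rw [← pow_mul]
      _ ≤ 2 ^ (2 ^ k') := Nat.pow_le_pow_right (by norm_num) h3
      _ ≤ 2 ^ Pb.card := Nat.pow_le_pow_right (by norm_num) (by omega)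
      _ ≤ ∏ p ∈ Pb, p := Finset.pow_card_le_prod _ _ _ (fun p hp => (hPb p hp).1.two_le)
  · apply RepUpTo.mono_dvd hrep.upTo
    · exact Finset.prod_dvd_prod_of_subset _ _ _ Finset.subset_union_left
    · apply Finset.prod_ne_zero_iff.2
      intro p hp
      rcases Finset.mem_union.1 hp with hp | hp
      · exact (hPb p hp).1.ne_zero
      · exact (hQmem p (hGQ hp)).1.ne_zero

end Vale.Agent.Lib.P012
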