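import Mathlib
import Vale.Agent.Lib.P012.Defs
import Vale.Agent.Lib.P012.Defs2
import Vale.Agent.Lib.P012.Choose
import Vale.Agent.Lib.P012.Chain

namespace Vale.Agent.Lib.P012

open Finset

/-- number of bits of the families used in phase `i` -/
def eK (k i : ℕ) : ℕ := (k - 1 - i) * 2 ^ i
/-- number of new primes per step in phase `i` -/
def rK (k i : ℕ) : ℕ := (4 * eK k i - 4) / (54 * k + 145)
/-- number of steps of phase `i` -/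
def nK (k i : ℕ) : ℕ := 2 * (54 * k + 145) / (k - 1 - i) + 1

theorem phase_params (k i : ℕ) (h1 : 54 * k + 145 ≤ 2 ^ i) (h2 : i + 2 ≤ k) :
    4 + rK k i * (54 * k + 145) ≤ 4 * eK k i ∧ 0 < rK k i ∧
      2 * eK k i ≤ rK k i * (54 * k + 145) ∧ rK k i ≤ 2 ^ k ∧ 4 * 2 ^ i ≤ nK k i * rK k i := by
  obtain ⟨c, hc⟩ : ∃ c, c = 54 * k + 145 := ⟨_, rfl⟩
  obtain ⟨j, hj⟩ : ∃ j, j = k - 1 - i := ⟨_, rfl⟩
  obtain ⟨w, hw⟩ : ∃ w, w = 2 ^ i := ⟨_, rfl⟩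
  have hj1 : 1 ≤ j := by omega
  have hc0 : 0 < c := by omega
  obtain ⟨e, he⟩ : ∃ e, e = eK k i := ⟨_, rfl⟩
  obtain ⟨r, hr⟩ : ∃ r, r = rK k i := ⟨_, rfl⟩
  obtain ⟨n, hn⟩ : ∃ n, n = nK k i := ⟨_, rfl⟩
  have he' : e = j * w := by rw [he, eK, hj, hw]
  have hr' : r = (4 * e - 4) / c := by rw [hr, rK, he, hc]
  have hn' : n = 2 * c / j + 1 := by rw [hn, nK, hc, hj]
  rw [← hc, ← he, ← hr, ← hn, ← hw]
  rw [← hc, ← hw] at h1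
  have hew : w ≤ e := by rw [he']; exact Nat.le_mul_of_pos_left _ hj1
  have a1 : r * c ≤ 4 * e - 4 := by rw [hr']; exact Nat.div_mul_le_self _ _
  have a2 : c * r + (4 * e - 4) % c = 4 * e - 4 := by rw [hr']; exact Nat.div_add_mod _ _
  have a3 : (4 * e - 4) % c < c := Nat.mod_lt _ hc0
  have a4 : c * r = r * c := mul_comm _ _
  have hc3 : 3 ≤ c := by omega
  have b3 : 2 * e ≤ r * c := by omega
  have b2 : 0 < r := by
    rcases Nat.eq_zero_or_pos r with h0 | h0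
    · rw [h0] at b3
      omega
    · exact h0
  have hjk : j * w ≤ 2 ^ (k - 1) := by
    have h3 : j ≤ 2 ^ j := Nat.lt_two_pow_self.le
    calc j * w ≤ 2 ^ j * 2 ^ i := by rw [hw]; exact Nat.mul_le_mul_right _ h3
      _ = 2 ^ (k - 1) := by rw [← pow_add]; congr 1; omega
  have h2k : 2 * 2 ^ (k - 1) = 2 ^ k := by
    obtain ⟨l, rfl⟩ : ∃ l, k = l + 1 := ⟨k - 1, by omega⟩
    simp only [Nat.add_sub_cancel]
    ring
  have b4 : r ≤ 2 ^ k := by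
    have h3 : r * 2 ≤ r * c := Nat.mul_le_mul_left _ (by omega)
    rw [← he'] at hjk
    omega
  have b5 : 4 * w ≤ n * r := by
    have h3 : 2 * c < n * j := by
      rw [hn', add_mul, one_mul]
      have := Nat.div_add_mod (2 * c) j
      have h5 := Nat.mod_lt (2 * c) hj1
      have h6 : j * (2 * c / j) = 2 * c / j * j := mul_comm _ _
      omega
    have h4 : c * (4 * w) ≤ c * (n * r) := by
      calc c * (4 * w) = (2 * c) * (2 * w) := by ring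
        _ ≤ (n * j) * (2 * w) := Nat.mul_le_mul_right _ h3.le
        _ = n * (2 * e) := by rw [he']; ring
        _ ≤ n * (r * c) := Nat.mul_le_mul_left _ b3
        _ = c * (n * r) := by ring
    exact Nat.le_of_mul_le_mul_left h4 hc0
  exact ⟨by omega, b2, b3, b4, b5⟩

theorem pow_facts (k : ℕ) (hk : 10 ≤ k) :
    2 ^ (2 * k + 2) = 4 * (2 ^ k * 2 ^ k) ∧ 2 ^ (2 * k) = 2 ^ k * 2 ^ k ∧ 1024 ≤ 2 ^ k ∧
      1024 * 2 ^ k ≤ 2 ^ k * 2 ^ k := by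
  have h1 : 2 ^ 10 ≤ 2 ^ k := Nat.pow_le_pow_right (by norm_num) hk
  refine ⟨by ring, by ring, by simpa using h1, ?_⟩
  exact Nat.mul_le_mul_right _ (by simpa using h1)

theorem chain_phases (k : ℕ) (hk : 10 ≤ k) (Us Ws Ts : Finset ℕ) (hU : Uni k Us Ws Ts)
    (c₀ i₀ f₁ : ℕ) (hc₀ : c₀ ≤ 2 ^ (2 * k)) (hi₀ : 54 * k + 145 ≤ 2 ^ i₀) (PM₀ : Finset ℕ)
    (hSt₀ : St k (Us ∪ Ws ∪ Ts) PM₀ c₀ (4 * 2 ^ i₀ + 8) f₁) :
    ∀ i, i₀ ≤ i → i + 2 ≤ k → ∃ PM μ f, St k (Us ∪ Ws ∪ Ts) PM c₀ μ f ∧ 4 * 2 ^ i + 8 ≤ μ ∧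
      μ ≤ 4 * 2 ^ i + 8 + 2 ^ k ∧ f ≤ f₁ + 4 * ∑ j ∈ Finset.Ico i₀ i, nK k j := by
  intro i hi
  induction i, hi using Nat.le_induction with
  | base =>
    intro _
    exact ⟨PM₀, _, f₁, hSt₀, le_rfl, Nat.le_add_right _ _, by simp⟩
  | succ i hi ih =>
    intro hik
    obtain ⟨PM, μ, f, hSt, hμ1, hμ2, hf⟩ := ih (by omega)
    have hi2 : 54 * k + 145 ≤ 2 ^ i := hi₀.trans (Nat.pow_le_pow_right (by norm_num) hi)
    obtain ⟨p1, p2, p3, p4, p5⟩ := phase_params k i hi2 (by omega)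
    obtain ⟨q1, q2, q3, q4⟩ := pow_facts k hk
    have e1 : 2 ^ (i + 1) = 2 * 2 ^ i := by ring
    have e2 : 4 * 2 ^ (i + 1) ≤ 2 ^ k := by
      calc 4 * 2 ^ (i + 1) = 2 ^ (i + 3) := by ring
        _ ≤ 2 ^ k := Nat.pow_le_pow_right (by norm_num) hik
    obtain ⟨PM', μ', f', h1, h2, h3, h4⟩ := chain_iter k hk Us Ws Ts hU (2 ^ i) (eK k i) (rK k i)
      (by omega) (two_pow_le_choose k i (by omega)) p1 p2 c₀ (4 * 2 ^ (i + 1) + 8) (by omega)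
      (nK k i) PM μ f hSt hμ1 (by omega)
    refine ⟨PM', μ', f', h1, h2, ?_, ?_⟩
    · rcases h3 with h3 | h3 <;> omega
    · rw [Finset.sum_Ico_succ_top hi]
      omega

theorem chain_top (k : ℕ) (hk : 10 ≤ k) (Us Ws Ts : Finset ℕ) (hU : Uni k Us Ws Ts)
    (c₀ i₀ f₁ : ℕ) (hc₀ : c₀ ≤ 2 ^ (2 * k)) (hi₀ : 54 * k + 145 ≤ 2 ^ i₀) (hi₀k : i₀ + 2 ≤ k)
    (PM₀ : Finset ℕ) (hSt₀ : St k (Us ∪ Ws ∪ Ts) PM₀ c₀ (4 * 2 ^ i₀ + 8) f₁) :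
    ∃ PM μ f, St k (Us ∪ Ws ∪ Ts) PM c₀ μ f ∧ 5 * 2 ^ k + 16 ≤ μ ∧
      f ≤ f₁ + 4 * ∑ j ∈ Finset.Ico i₀ (k - 2), nK k j + 36 * (54 * k + 145) := by
  obtain ⟨PM, μ, f, hSt, hμ1, hμ2, hf⟩ := chain_phases k hk Us Ws Ts hU c₀ i₀ f₁ hc₀ hi₀ PM₀ hSt₀
    (k - 2) (by omega) (by omega)
  have hi2 : 54 * k + 145 ≤ 2 ^ (k - 2) := hi₀.trans (Nat.pow_le_pow_right (by norm_num) (by omega))
  obtain ⟨p1, p2, p3, p4, p5⟩ := phase_params k (k - 2) hi2 (by omega)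
  obtain ⟨q1, q2, q3, q4⟩ := pow_facts k hk
  have e1 : 4 * 2 ^ (k - 2) = 2 ^ k := by
    obtain ⟨l, rfl⟩ : ∃ l, k = l + 2 := ⟨k - 2, by omega⟩
    simp only [Nat.add_sub_cancel]
    ring
  have e2 : eK k (k - 2) = 2 ^ (k - 2) := by
    rw [eK]
    have : k - 1 - (k - 2) = 1 := by omega
    rw [this, one_mul]
  rw [e2] at p3
  have e3 : 9 * (2 * 2 ^ (k - 2)) ≤ 9 * (54 * k + 145) * rK k (k - 2) := by
    calc 9 * (2 * 2 ^ (k - 2)) ≤ 9 * (rK k (k - 2) * (54 * k + 145)) := Nat.mul_le_mul_left _ p3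
      _ = 9 * (54 * k + 145) * rK k (k - 2) := by ring
  obtain ⟨PM', μ', f', h1, h2, h3, h4⟩ := chain_iter k hk Us Ws Ts hU (2 ^ (k - 2)) (eK k (k - 2))
    (rK k (k - 2)) (by omega) (two_pow_le_choose k (k - 2) (by omega)) p1 p2 c₀ (5 * 2 ^ k + 16)
    (by omega) (9 * (54 * k + 145)) PM μ f hSt hμ1 (by omega)
  refine ⟨PM', μ', f', h1, h2, ?_⟩
  generalize ∑ j ∈ Finset.Ico i₀ (k - 2), nK k j = sg at hf ⊢
  calc f' ≤ f + 4 * (9 * (54 * k + 145)) := h4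
    _ ≤ (f₁ + 4 * sg) + 4 * (9 * (54 * k + 145)) := Nat.add_le_add_right hf _
    _ = f₁ + 4 * sg + 36 * (54 * k + 145) := by ring

end Vale.Agent.Lib.P012
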