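import Mathlib
import Vale.Agent.Lib.P012.Defs
import Vale.Agent.Lib.P012.Defs2
import Vale.Agent.Lib.P012.Greedy
import Vale.Agent.Lib.P012.BaseParams
import Vale.Agent.Lib.P012.CostSum
import Vale.Agent.Lib.P012.FinalNumeric2
import Vale.Agent.Lib.P012.Epoch
import Vale.Agent.Lib.P012.Upto
import Vale.Agent.Lib.P012.Phases
import Vale.Agent.Lib.P012.Init

namespace Vale.Agent.Lib.P012

open Finset

theorem rep_upto_exists : ∃ f₀ : ℕ, ∀ k : ℕ, 30 ≤ k → ∃ (M Γ f : ℕ), 1 ≤ Γ ∧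
    Γ ≤ (2 ^ (18 * k + 48)) ^ (2 ^ k + 4) ∧ (2 ^ (9 * k + 24)) ^ (5 * 2 ^ k + 16) ≤ M ∧
    RepUpTo (M * Γ) M f ∧ (f : ℝ) ≤ f₀ + 14600 * ((k : ℝ) * (1 + Real.log k)) := by
  obtain ⟨f₀, h₀⟩ := all_good
  refine ⟨f₀, ?_⟩
  intro k hk
  obtain ⟨i₀, k', b1, b2, b3, b4, b5, b6⟩ := base_params k hk
  obtain ⟨Pb, fb, hGood, hfb⟩ := h₀ k' b4
  obtain ⟨Us, Ws, Ts, hU, hSt₀, hcard⟩ := chain_init k k' i₀ (by omega) b3 b5 Pb fb hGood
  obtain ⟨PM, μ, f, hSt, hμ, hf⟩ := chain_top k (by omega) Us Ws Ts hU Pb.card i₀ fb hcard b1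
    (by omega) Pb hSt₀
  obtain ⟨hG, dUW, dTU, dTW, cU, cW, cT⟩ := hU
  obtain ⟨hPM, hdisj, hPMc, hz, hrep⟩ := hSt
  obtain ⟨G, hGdef⟩ : ∃ G, G = Us ∪ Ws ∪ Ts := ⟨_, rfl⟩
  rw [← hGdef] at hG hdisj hrep
  have h2u : 2 * 2 ^ (k - 1) = 2 ^ k := by
    obtain ⟨j, rfl⟩ : ∃ j, k = j + 1 := ⟨k - 1, by omega⟩
    simp only [Nat.add_sub_cancel]
    ring
  have hGc : G.card ≤ 2 ^ k + 4 := by
    rw [hGdef]
    calc (Us ∪ Ws ∪ Ts).card ≤ (Us ∪ Ws).card + Ts.card := Finset.card_union_le _ _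
      _ ≤ Us.card + Ws.card + Ts.card := Nat.add_le_add_right (Finset.card_union_le _ _) _
      _ = 2 ^ k + 4 := by rw [cU, cW, cT]; omega
  refine ⟨∏ p ∈ PM, p, ∏ p ∈ G, p, f, ?_, ?_, ?_, ?_, ?_⟩
  · exact Finset.prod_pos (fun p hp => (hG p hp).1.pos)
  · calc ∏ p ∈ G, p ≤ (2 ^ (18 * k + 48)) ^ G.card :=
          Finset.prod_le_pow_card _ _ _ (fun p hp => (hG p hp).2)
      _ ≤ (2 ^ (18 * k + 48)) ^ (2 ^ k + 4) := Nat.pow_le_pow_right Nat.one_le_two_pow hGc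
  · exact (Nat.pow_le_pow_right Nat.one_le_two_pow hμ).trans hz
  · rw [← Finset.prod_union hdisj]
    exact hrep
  · have hcs := cost_sum k i₀ (by omega) (by omega)
    have hsum : ((∑ j ∈ Finset.Ico i₀ (k - 2), nK k j : ℕ) : ℝ)
        ≤ 2 * (54 * k + 145) * (1 + Real.log k) + k := hcs
    generalize ∑ j ∈ Finset.Ico i₀ (k - 2), nK k j = sg at hf hsum
    have hfR : (f : ℝ) ≤ fb + 4 * sg + 36 * (54 * k + 145) := by exact_mod_cast hf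
    have hfbR : (fb : ℝ) ≤ f₀ + 300 * (k' : ℝ) ^ 2 := by exact_mod_cast hfb
    have hk'R : (k' : ℝ) ^ 2 ≤ 40 * k := by exact_mod_cast b6
    have hkR : (30 : ℝ) ≤ k := by exact_mod_cast hk
    have hlog : 0 ≤ Real.log k := Real.log_nonneg (by linarith)
    clear hrep hz hSt₀ hGood
    nlinarith [mul_nonneg (by linarith : (0 : ℝ) ≤ k) hlog]

theorem size_facts (k : ℕ) (hk : 10 ≤ k) :
    (2 ^ (18 * k + 48)) ^ (2 ^ k + 4) ≤ 2 ^ (2 ^ (2 * k)) := by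
  rw [← pow_mul]
  apply Nat.pow_le_pow_right (by norm_num)
  have h1 := lin_le_two_pow k hk
  have h2 : 2 ^ (2 * k) = 2 ^ k * 2 ^ k := by ring
  rw [h2]
  have h3 : 2 * (18 * k + 48) ≤ 2 ^ k := by omega
  have h4 : 2 ^ k + 4 ≤ 2 * 2 ^ k := by omega
  calc (18 * k + 48) * (2 ^ k + 4) ≤ (18 * k + 48) * (2 * 2 ^ k) := Nat.mul_le_mul_left _ h4
    _ = (2 * (18 * k + 48)) * 2 ^ k := by ring
    _ ≤ 2 ^ k * 2 ^ k := Nat.mul_le_mul_right _ h3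

theorem size_facts2 (k b Γ : ℕ) (hb : b ≤ 2 ^ (2 ^ k))
    (hΓ : Γ ≤ (2 ^ (18 * k + 48)) ^ (2 ^ k + 4)) :
    2 * b * Γ ^ 2 ≤ (2 ^ (9 * k + 24)) ^ (5 * 2 ^ k + 16) := by
  calc 2 * b * Γ ^ 2 ≤ 2 * 2 ^ (2 ^ k) * ((2 ^ (18 * k + 48)) ^ (2 ^ k + 4)) ^ 2 :=
        Nat.mul_le_mul (Nat.mul_le_mul_left _ hb) (Nat.pow_le_pow_left hΓ 2)
    _ = 2 ^ (1 + 2 ^ k + (18 * k + 48) * ((2 ^ k + 4) * 2)) := by
        rw [← pow_mul, ← pow_mul, pow_add, pow_add, pow_one]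
    _ ≤ 2 ^ ((9 * k + 24) * (5 * 2 ^ k + 16)) := by
        apply Nat.pow_le_pow_right (by norm_num)
        have h1 : 1 ≤ 2 ^ k := Nat.one_le_two_pow
        nlinarith
    _ = (2 ^ (9 * k + 24)) ^ (5 * 2 ^ k + 16) := by rw [← pow_mul]

theorem final_arith (c kR fR f0 x y : ℝ) (hc : c ≤ (2 * kR + 1) + 2 * fR)
    (hf : fR ≤ f0 + 14600 * x) (hxy : x ≤ 200 * y) (hk : 30 ≤ kR) (hkx : kR ≤ x)
    (hf0 : 0 ≤ f0) : c ≤ (14 * f0 + 5850000) * y := by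
  have hy : (0.15 : ℝ) ≤ y := by linarith
  have h1 : 0 ≤ f0 * (y - 0.15) := mul_nonneg hf0 (by linarith)
  nlinarith

/-- **Main theorem, sharper form**: `N(b) ≪ log log b · log log log b`. -/
theorem main_bound2 : ∃ C : ℝ, ∀ a b : ℕ, a < b → 2 ^ 32 ≤ b →
    ∃ S : Finset ℕ, (∀ n ∈ S, 2 ≤ n) ∧ ∑ n ∈ S, (1 / (n : ℚ)) = (a : ℚ) / b ∧
      (S.card : ℝ) ≤ C * (Real.log (Real.log b) * Real.log (Real.log (Real.log b))) := by
  obtain ⟨f₀, h₀⟩ := rep_upto_exists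
  refine ⟨14 * f₀ + 5850000, ?_⟩
  intro a b hab hb
  obtain ⟨k, hk30, hbk, hkL⟩ := final_numeric2 b hb
  obtain ⟨M, Γ, f, hΓ1, hΓ2, hM, hrep, hf⟩ := h₀ k hk30
  obtain ⟨F, p', c', hFc, hF, hc'0, hp'X, hc'le, hsum⟩ := greedy_full (2 * k) a b Γ hab hΓ1
    (hΓ2.trans (size_facts k (by omega)))
  have hc'M : c' ≤ M := hc'le.trans ((size_facts2 k b Γ hbk hΓ2).trans hM)
  have hM0 : 0 < M := lt_of_lt_of_le hc'0 hc'M
  obtain ⟨S, hS1, hSsum, hScard⟩ := egypt_tail hrep (Nat.mul_pos hM0 hΓ1) hc'0 hc'M (by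
    calc p' * (M * Γ) = M * (p' * Γ) := by ring
      _ ≤ M * c' := Nat.mul_le_mul_left _ hp'X.le)
  have hdisj : Disjoint F S := by
    rw [Finset.disjoint_left]
    intro n hnF hnS
    have h1 := (hF n hnF).2
    have h2 := hS1 n hnS
    rw [mul_comm] at h2
    omega
  refine ⟨F ∪ S, ?_, ?_, ?_⟩
  · intro n hn
    rcases Finset.mem_union.1 hn with hn | hn
    · exact (hF n hn).1
    · have h2 := hS1 n hn
      have h3 : p' * Γ < n * p' := lt_of_lt_of_le hp'X h2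
      rw [mul_comm n p'] at h3
      have h4 : Γ < n := lt_of_mul_lt_mul_left h3 (Nat.zero_le _)
      omega
  · rw [Finset.sum_union hdisj, hSsum, hsum]
  · have hcard : ((F ∪ S).card : ℝ) ≤ (2 * k + 1) + 2 * f := by
      have h1 : (F ∪ S).card ≤ (2 * k + 1) + 2 * f :=
        (Finset.card_union_le _ _).trans (Nat.add_le_add hFc hScard)
      exact_mod_cast h1
    have hkR : (30 : ℝ) ≤ k := by exact_mod_cast hk30
    have hlog : 0 ≤ Real.log k := Real.log_nonneg (by linarith)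
    have hxk : (k : ℝ) ≤ (k : ℝ) * (1 + Real.log k) :=
      le_mul_of_one_le_right (by linarith) (by linarith)
    exact final_arith _ _ _ _ _ _ hcard hf hkL hkR hxk (Nat.cast_nonneg _)

end Vale.Agent.Lib.P012
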